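import Crest.Agent.Lib.TM.T53

/-! # Lib/TM/D53 : direct style (generated by tools/tm/tmcfgd.py).  Values are terms, checks are `Bool`s. -/

set_option autoImplicit false
set_option linter.unusedVariables false
set_option maxRecDepth 100000
set_option exponentiation.threshold 200000

namespace Crest.Agent.TM.T53

open Finset Crest.Agent.Bern Crest.Agent.TM Crest.Agent.R307 Crest.Agent.R307.IA Crest.Agent.R307.IA5

def cT0 : ℕ := 0xffffffffff7ffffffffffffffffffffffefffffffffffffffffffffffdfffffffffffffffffffffffbfffffffffffffffffffffff7ffffffffffffffffffffffefffffffffffffffffffffffdfffffffffffffffffffffffbfffffffffffffffffffffff7ffffffffffffffffffffffefffffffffffffffffffffffdfffffffffffffffffffffffbfffffffffffffffffffffff7ffffffffffffffffffffffefffffffffffffffffffffffdfffffffffffffffffffffffbfffffffffffffffffffffff7ffffffffffffffffffffffefffffffffffffffffffffffdfffffffffffffffffffffffbfffffffffffffffffffffff7ffffffffffffffffffffffefffffffffffffffffffffffdfffffffffff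ffffffffffffbfffffffffffffffffffffff7ffffffffffffffffffffffefffffffffffffffffffffffdfffffffffffffffffffffffbfffffffffffffffffffffff7ffffffffffffffffffffffefffffffffffffffffffffffdfffffffffffffffffffffffbfffffffffffffffffffffff7ffffffffffffffffffffffefffffffffffffffffffffffdfffffffffffffffffffffffbfffffffffffffffffffffff7ffffffffffffffffffffffefffffffffffffffffffffffdfffffffffffffffffffffffbfffffffffffffffffffffff7ffffffffffffffffffffffefffffffffffffffffffffffdfffffffffffffffffffffffbfffffffffffffffffffffff7ffffffffffffffffffffffefffffffffffffffffffffffdfffffffffffffffffffffffbfffffffffffffffffffffff7ffffffffffffffffffffffefffffffffffffffffffffffdfffffffffffffffffffffffbfffffffffffffffffffffff7ffffffffffffffffffffffefffffffffffffffffffffffdfffffffffffffffffffffffbfffffffffffffffffffffff7ffffffffffffffffffffffefffffffffffffffffffffffdfffffffffffffffffffffffbfffffffffffffffffffffff7ffffffffffffffffffffffefffffffffffffffffffffffdfffffffffffffffffffffffbffffffffffffffff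fffffff7ffffffffffffffffffffffefffffffffffffffffffffffdfffffffffffffffffffffffbfffffffffffffffffffffff7ffffffffffffffffffffffefffffffffffffffffffffffdfffffffffffffffffffffffbfffffffffffffffffffffff7ffffffffffffffffffffffefffffffffffffffffffffffdfffffffffffffffffffffffbfffffffffffffffffffffff7ffffffffffffffffffffffefffffffffffffffffffffffdfffffffffffffffffffffffbfffffffffffffffffffffff7ffffffffffffffffffffffefffffffffffffffffffffffdfffffffffffffffffffffffbfffffffffffffffffffffff7ffffffffffffffffffffffefffffffffffffffffffffffdfffffffffffffffffffffffbfffffffffffffffffffffff7ffffffffffffffffffffffefffffffffffffffffffffffdfffffffffffffffffffffffbfffffffffffffffffffffff7ffffffffffffffffffffffefffffffffffffffffffffffdfffffffffffffffffffffffbfffffffffffffffffffffff7ffffffffffffffffffffffefffffffffffffffffffffffdfffffffffffffffffffffffbfffffffffffffffffffffff7ffffffffffffffffffffffefffffffffffffffffffffffdfffffffffffffffffffffffbfffffffffffffffffffffff7fffffffffffffffffffff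fefffffffffffffffffffffffdfffffffffffffffffffffffbfffffffffffffffffffffff7ffffffffffffffffffffffefffffffffffffffffffffffdfffffffffffffffffffffffbfffffffffffffffffffffff7ffffffffffffffffffffffefffffffffffffffffffffffdfffffffffffffffffffffffbfffffffffffffffffffffff7ffffffffffffffffffffffefffffffffffffffffffffffdfffffffffffffffffffffffbfffffffffffffffffffffff7ffffffffffffffffffffffefffffffffffffffffffffffdfffffffffffffffffffffffbfffffffffffffffffffffff7ffffffffffffffffffffffefffffffffffffffffffffffdfffffffffffffffffffffffbfffffffffffffffffffffff7ffffffffffffffffffffffefffffffffffffffffffffffdfffffffffffffffffffffffbfffffffffffffffffffffff7ffffffffffffffffffffffefffffffffffffffffffffffdfffffffffffffffffffffffbfffffffffffffffffffffff7ffffffffffffffffffffffefffffffffffffffffffffffdfffffffffffffffffffffffbfffffffffffffffffffffff7ffffffffffffffffffffffefffffffffffffffffffffffdfffffffffffffffffffffffbfffffffffffffffffffffff7ffffffffffffffffffffffefffffffffffffffffffffffdfff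ffffffffffffffffffffbfffffffffffffffffffffff7ffffffffffffffffffffffefffffffffffffffffffffffdfffffffffffffffffffffffbfffffffffffffffffffffff7ffffffffffffffffffffffefffffffffffffffffffffffdfffffffffffffffffffffffbfffffffffffffffffffffff7ffffffffffffffffffffffefffffffffffffffffffffffdfffffffffffffffffffffffbfffffffffffffffffffffff7ffffffffffffffffffffffefffffffffffffffffffffffdfffffffffffffffffffffffbfffffffffffffffffffffff7ffffffffffffffffffffffefffffffffffffffffffffffdfffffffffffffffffffffffbfffffffffffffffffffffff7ffffffffffffffffffffffefffffffffffffffffffffffdfffffffffffffffffffffffbfffffffffffffffffffffff7ffffffffffffffffffffffefffffffffffffffffffffffdfffffffffffffffffffffffbfffffffffffffffffffffff7ffffffffffffffffffffffefffffffffffffffffffffffdfffffffffffffffffffffffbfffffffffffffffffffffff7ffffffffffffffffffffffefffffffffffffffffffffffdfffffffffffffffffffffffbfffffffffffffffffffffff7ffffffffffffffffffffffefffffffffffffffffffffffdfffffffffffffffffffffffbffffffff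fffffffffffffff7ffffffffffffffffffffffefffffffffffffffffffffffdfffffffffffffffffffffffbfffffffffffffffffffffff7ffffffffffffffffffffffefffffffffffffffffffffffdfffffffffffffffffffffffbfffffffffffffffffffffff7ffffffffffffffffffffffefffffffffffffffffffffffdfffffffffffffffffffffffbfffffffffffffffffffffff7ffffffffffffffffffffffefffffffffffffffffffffffdfffffffffffffffffffffffbfffffffffffffffffffffff7ffffffffffffffffffffffefffffffffffffffffffffffdfffffffffffffffffffffffbfffffffffffffffffffffff7ffffffffffffffffffffffefffffffffffffffffffffffdfffffffffffffffffffffffbfffffffffffffffffffffff7ffffffffffffffffffffffefffffffffffffffffffffffdfffffffffffffffffffffffbfffffffffffffffffffffff7ffffffffffffffffffffffefffffffffffffffffffffffdfffffffffffffffffffffffbfffffffffffffffffffffff7ffffffffffffffffffffffefffffffffffffffffffffffdfffffffffffffffffffffffbfffffffffffffffffffffff7ffffffffffffffffffffffefffffffffffffffffffffffdfffffffffffffffffffffffbfffffffffffffffffffffff7fffffffffffff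fffffffffefffffffffffffffffffffffdfffffffffffffffffffffffbfffffffffffffffffffffff7ffffffffffffffffffffffefffffffffffffffffffffffdfffffffffffffffffffffffbfffffffffffffffffffffff7ffffffffffffffffffffffefffffffffffffffffffffffdfffffffffffffffffffffffbfffffffffffffffffffffff7ffffffffffffffffffffffefffffffffffffffffffffffdfffffffffffffffffffffffbfffffffffffffffffffffff7ffffffffffffffffffffffefffffffffffffffffffffffdfffffffffffffffffffffffbfffffffffffffffffffffff7ffffffffffffffffffffffefffffffffffffffffffffffdfffffffffffffffffffffffbfffffffffffffffffffffff7ffffffffffffffffffffffefffffffffffffffffffffffdfffffffffffffffffffffffbfffffffffffffffffffffff7ffffffffffffffffffffffefffffffffffffffffffffffdfffffffffffffffffffffffbfffffffffffffffffffffff7ffffffffffffffffffffffefffffffffffffffffffffffdfffffffffffffffffffffffbfffffffffffffffffffffff7ffffffffffffffffffffffefffffffffffffffffffffffdfffffffffffffffffffffffbfffffffffffffffffffffff7ffffffffffffffffffffffefffffffffffffffffffffffdfffffffffffffffffffffffbfffffffffffffffffffffff7ffffffffffffffffffffffefffffffffffffffffffffffdfffffffffffffffffffffffbfffffffffffffffffffffff7ffffffffffffffffffffffefffffffffffffffffffffffdfffffffffffffffffffffffc0000000000000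
theorem cT0_eq : cT0 = 2 ^ (95 * 280) - 2 ^ 54 * ones 95 280 := by decide +kernel

noncomputable def absE (X : ℕ) : ℕ := Nat.sub (Nat.add (Nat.mul 2 (psE X)) cB) (Nat.land X cLow)
noncomputable def xm (X : ℕ) : ℕ := Nat.add X cT0
noncomputable def rr (X : ℕ) : ℕ := Nat.shiftRight X 26600
noncomputable def t0 (X : ℕ) : ℕ := Nat.mod (absE X) 39614081257132168796771975167
noncomputable def t1 (X : ℕ) : ℕ := Nat.mod (Nat.shiftRight (absE X) 6650) 39614081257132168796771975167
noncomputable def t2 (X : ℕ) : ℕ := Nat.mod (Nat.shiftRight (absE X) 13300) 39614081257132168796771975167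
noncomputable def t3 (X : ℕ) : ℕ := Nat.mod (Nat.shiftRight (absE X) 19950) 39614081257132168796771975167
noncomputable def mulE (X Y : ℕ) : ℕ :=
  Nat.add (Nat.land (Nat.shiftRight (Nat.add (Nat.mul (xm X) (xm Y)) cH) 40) cMK)
    (Nat.shiftLeft (Nat.add (Nat.shiftRight (Nat.add (Nat.add (Nat.mul (rr X) (Nat.add (t0 Y) (rr Y))) (Nat.mul (rr Y) (t0 X))) (Nat.add (Nat.add (Nat.mul (t1 X) (t3 Y)) (Nat.mul (t2 X) (t2 Y))) (Nat.mul (t3 X) (t1 Y)))) 40) 281) 26600)
noncomputable def mulB (X Y : ℕ) : Bool := Nat.ble (Nat.mul (t0 X) (t0 Y)) 19807040628566084398385987583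
noncomputable def mulcE (X A q : ℕ) : ℕ :=
  Nat.add (Nat.land (Nat.shiftRight (Nat.add (Nat.mul (xm X) A) cH) 40) cMK)
    (Nat.shiftLeft (Nat.add (Nat.shiftRight (Nat.add (Nat.mul (rr X) (Nat.add A q)) (Nat.mul q (t0 X))) 40) 281) 26600)
noncomputable def mulcB (X A : ℕ) : Bool := Nat.ble (Nat.mul (t0 X) A) 19807040628566084398385987583
noncomputable def finY (Z D G : ℕ) : ℕ := Nat.shiftRight (Nat.add Z (Nat.mul D cO)) G
noncomputable def finE (Z D G : ℕ) : ℕ :=
  Nat.add (Nat.land (finY Z D G) cMK) (Nat.shiftLeft (Nat.add (Nat.shiftRight (finY Z D G) 26600) 281) 26600)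
noncomputable def finB (Z D G : ℕ) : Bool := Nat.beq (Nat.land (finY Z D G) cHM) cHT
noncomputable def posB (X : ℕ) : Bool :=
  Nat.ble (Nat.add (Nat.add (Nat.mod (Nat.add (Nat.sub (Nat.add (psE X) cB) (Nat.land X cLow)) (Nat.land (psE X) cOD)) 39614081257132168796771975167)
    (Nat.shiftRight X 26600)) 1) (Nat.mod (psE X) 39614081257132168796771975168)
noncomputable def varE (s z a : ℕ) : ℕ := Nat.add (Nat.add cB0 (Nat.sub z 1134907106097364992)) (Nat.shiftLeft a s)
noncomputable def varB (z a : ℕ) : Bool :=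
  iB (Nat.ble 1134907106097364992 z) false (iB (Nat.ble z 1170935903116328959) false (Nat.ble a 18014398509481983))
/-- field `i` (16 bits) of the leaf word, scaled -/
noncomputable def parE (u i : ℕ) : ℕ := Nat.mul (Nat.land (Nat.shiftRight u i) 65535) 16777216
noncomputable def parR (u i : ℕ) : ℝ := ((Nat.land (Nat.shiftRight u i) 65535 : ℕ) : ℝ) / 65536

theorem fB_succ (n : ℕ) (k : ℕ → Bool) : fB (Nat.add n 1) k = k n := by unfold fB; rfl
theorem iB_true (a k : Bool) : iB true a k = k := by unfold iB; rfl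

section
variable {e1 e2 e3 e4 e5 : ℝ}

theorem nrm_aux (he : Ev e1 e2 e3 e4 e5) {X A s0 s1 s2 s3 : ℕ} {v : ℝ} (h : In e1 e2 e3 e4 e5 X v)
    (hA : A = Nat.sub (Nat.add (Nat.mul 2 (psE X)) cB) (Nat.land X cLow))
    (h0 : s0 = Nat.mod A 39614081257132168796771975167)
    (h1 : s1 = Nat.mod (Nat.shiftRight A 6650) 39614081257132168796771975167)
    (h2 : s2 = Nat.mod (Nat.shiftRight A 13300) 39614081257132168796771975167)
    (h3 : s3 = Nat.mod (Nat.shiftRight A 19950) 39614081257132168796771975167)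
    : Nrm e1 e2 e3 e4 e5 (Nat.add X cT0) (Nat.shiftRight X 26600) s0 s1 s2 s3 v := by
  have h1' := nrm_s (ok he) (A := A) (T := TT s0 s1 s2 s3) h
    (by rw [hA, psE_eq e1 e2 e3 e4 e5, cB_eq, cLow_eq]; rfl)
    (by
      intro j hj
      replace hj : j ≤ 3 := hj
      interval_cases j
      · exact h0.symm.le
      · exact h1.symm.le
      · exact h2.symm.le
      · exact h3.symm.le
    )
  rw [cT0_eq]
  exact h1'

theorem nrmE_s (he : Ev e1 e2 e3 e4 e5) {X : ℕ} {v : ℝ} (h : In e1 e2 e3 e4 e5 X v) : Nrm e1 e2 e3 e4 e5 (xm X) (rr X) (t0 X) (t1 X) (t2 X) (t3 X) v := by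
  unfold xm rr
  exact nrm_aux he h (A := absE X) (by unfold absE; rfl) (by unfold t0; rfl) (by unfold t1; rfl) (by unfold t2; rfl) (by unfold t3; rfl)

attribute [local irreducible] xm rr absE psE t0 t1 t2 t3 cO cB cB0 cB1 cB2 cOne cLow cMK cH cHM cHT cOD cT0

theorem mulE_s (he : Ev e1 e2 e3 e4 e5) {X Y : ℕ} {v v' : ℝ} (h : In e1 e2 e3 e4 e5 X v) (h' : In e1 e2 e3 e4 e5 Y v') (H : mulB X Y = true) :
    In e1 e2 e3 e4 e5 (mulE X Y) (v * v') := by
  refine mulK_s he (k := fun Z => Nat.beq Z (mulE X Y)) (nrmE_s he h) (nrmE_s he h')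
    (fun Z hZ e => Nat.eq_of_beq_eq_true e ▸ hZ) ?_
  unfold mulK
  unfold mulB at H
  rw [H, iB_true, fB_succ]
  unfold mulE
  exact Nat.beq_refl _

theorem mulcE_s (he : Ev e1 e2 e3 e4 e5) {X A q : ℕ} {v v' : ℝ} (h : In e1 e2 e3 e4 e5 X v) (h' : Nrm e1 e2 e3 e4 e5 A q A 0 0 0 v')
    (H : mulcB X A = true) : In e1 e2 e3 e4 e5 (mulcE X A q) (v * v') := by
  refine mulcK_s he (k := fun Z => Nat.beq Z (mulcE X A q)) (nrmE_s he h) h'
    (fun Z hZ e => Nat.eq_of_beq_eq_true e ▸ hZ) ?_
  unfold mulcK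
  unfold mulcB at H
  rw [H, iB_true, fB_succ]
  unfold mulcE
  exact Nat.beq_refl _

theorem finE_s (he : Ev e1 e2 e3 e4 e5) {C Z D G : ℕ} {v : ℝ} (h : Acc e1 e2 e3 e4 e5 C Z v) (hs : finOk C D G = true)
    (H : finB Z D G = true) : In e1 e2 e3 e4 e5 (finE Z D G) (v / 2 ^ G) := by
  refine finK_s he (k := fun Y => Nat.beq Y (finE Z D G)) h hs (fun Z hZ e => Nat.eq_of_beq_eq_true e ▸ hZ) ?_
  unfold finK
  unfold finB finY at H
  rw [fB_succ, H, iB_true, fB_succ]
  unfold finE finY
  exact Nat.beq_refl _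

theorem posB_s (he : Ev e1 e2 e3 e4 e5) {X : ℕ} {v : ℝ} (h : In e1 e2 e3 e4 e5 X v) (H : posB X = true) : 0 < v := by
  refine pos_s he h ?_
  unfold pos
  rw [fB_succ]
  exact H

theorem parE_s (he : Ev e1 e2 e3 e4 e5) (u i : ℕ) : Nrm e1 e2 e3 e4 e5 (parE u i) 0 (parE u i) 0 0 0 (parR u i) :=
  (par he (z := Nat.shiftRight u i) rfl rfl).1
theorem parR_0 (u i : ℕ) : 0 ≤ parR u i := by unfold parR; positivity
theorem parR_1 (u i : ℕ) : parR u i ≤ 1 := by
  unfold parR
  have h1 : Nat.land (Nat.shiftRight u i) 65535 ≤ 65535 := Nat.and_le_right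
  have h3 : ((Nat.land (Nat.shiftRight u i) 65535 : ℕ) : ℝ) ≤ 65535 := by exact_mod_cast h1
  linarith

theorem var1E_s (he : Ev e1 e2 e3 e4 e5) {z a : ℕ} (H : varB z a = true) :
    In e1 e2 e3 e4 e5 (varE 6650 z a) (IA.val z + (a : ℝ) / SS * e1) := by
  refine var1_s he (k := fun Y => Nat.beq Y (varE 6650 z a)) (fun Z hZ e => Nat.eq_of_beq_eq_true e ▸ hZ) ?_
  unfold varK
  unfold varB at H
  obtain ⟨b1, H⟩ := brc H
  obtain ⟨b2, b3⟩ := brc H
  rw [b1, b2, b3, iB_true, iB_true, iB_true, fB_succ]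
  exact Nat.beq_refl _

theorem var2E_s (he : Ev e1 e2 e3 e4 e5) {z a : ℕ} (H : varB z a = true) :
    In e1 e2 e3 e4 e5 (varE 6745 z a) (IA.val z + (a : ℝ) / SS * e2) := by
  refine var2_s he (k := fun Y => Nat.beq Y (varE 6745 z a)) (fun Z hZ e => Nat.eq_of_beq_eq_true e ▸ hZ) ?_
  unfold varK
  unfold varB at H
  obtain ⟨b1, H⟩ := brc H
  obtain ⟨b2, b3⟩ := brc H
  rw [b1, b2, b3, iB_true, iB_true, iB_true, fB_succ]
  exact Nat.beq_refl _

theorem var3E_s (he : Ev e1 e2 e3 e4 e5) {z a : ℕ} (H : varB z a = true) :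
    In e1 e2 e3 e4 e5 (varE 8075 z a) (IA.val z + (a : ℝ) / SS * e3) := by
  refine var3_s he (k := fun Y => Nat.beq Y (varE 8075 z a)) (fun Z hZ e => Nat.eq_of_beq_eq_true e ▸ hZ) ?_
  unfold varK
  unfold varB at H
  obtain ⟨b1, H⟩ := brc H
  obtain ⟨b2, b3⟩ := brc H
  rw [b1, b2, b3, iB_true, iB_true, iB_true, fB_succ]
  exact Nat.beq_refl _

theorem var4E_s (he : Ev e1 e2 e3 e4 e5) {z a : ℕ} (H : varB z a = true) :
    In e1 e2 e3 e4 e5 (varE 8360 z a) (IA.val z + (a : ℝ) / SS * e4) := by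
  refine var4_s he (k := fun Y => Nat.beq Y (varE 8360 z a)) (fun Z hZ e => Nat.eq_of_beq_eq_true e ▸ hZ) ?_
  unfold varK
  unfold varB at H
  obtain ⟨b1, H⟩ := brc H
  obtain ⟨b2, b3⟩ := brc H
  rw [b1, b2, b3, iB_true, iB_true, iB_true, fB_succ]
  exact Nat.beq_refl _

theorem var5E_s (he : Ev e1 e2 e3 e4 e5) {z a : ℕ} (H : varB z a = true) :
    In e1 e2 e3 e4 e5 (varE 8835 z a) (IA.val z + (a : ℝ) / SS * e5) := by
  refine var5_s he (k := fun Y => Nat.beq Y (varE 8835 z a)) (fun Z hZ e => Nat.eq_of_beq_eq_true e ▸ hZ) ?_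
  unfold varK
  unfold varB at H
  obtain ⟨b1, H⟩ := brc H
  obtain ⟨b2, b3⟩ := brc H
  rw [b1, b2, b3, iB_true, iB_true, iB_true, fB_succ]
  exact Nat.beq_refl _

attribute [irreducible] mulE mulcE finE varE parE mulB mulcB finB posB varB

noncomputable def ivA (X : ℕ) : ℕ := Nat.div 1208925819614629174706176 (Nat.sub (Nat.mod X 39614081257132168796771975168) 18014398509481984)
noncomputable def ivZ (X : ℕ) : ℕ := Nat.add cOne (ng1 (mulcE X (ivA X) 0))
noncomputable def iv1 (X : ℕ) : ℕ := finE (ivZ X) 73768961896328724480 0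
noncomputable def ivM (X : ℕ) : ℕ := Nat.add (t0 (iv1 X)) (rr (iv1 X))
noncomputable def iv2 (X : ℕ) : ℕ := mulE (iv1 X) (iv1 X)
noncomputable def iv3 (X : ℕ) : ℕ := mulE (iv2 X) (iv1 X)
noncomputable def ivS (X : ℕ) : ℕ := (Nat.add (Nat.add (Nat.add cOne (iv1 X)) (iv2 X)) (iv3 X))
noncomputable def ivT (X : ℕ) : ℕ := finE (ivS X) 73732933099309760512 0
noncomputable def invE (X : ℕ) : ℕ :=
  Nat.add (mulcE (ivT X) (ivA X) 0) (Nat.shiftLeft (Nat.add (Nat.div (Nat.mul (ivA X) (Nat.pow (ivM X) 4)) (Nat.mul 1329227995784915872903807060280344576 (Nat.sub 1099511627776 (ivM X)))) 1) 26600)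
noncomputable def invB (X : ℕ) : Bool := (iB (mulcB X (ivA X)) false (iB (finB (ivZ X) 73768961896328724480 0) false (iB (Nat.ble (ivM X) 1099511627775) false (iB (mulB (iv1 X) (iv1 X)) false (iB (mulB (iv2 X) (iv1 X)) false (iB (finB (ivS X) 73732933099309760512 0) false (mulcB (ivT X) (ivA X))))))))

theorem nrm_abs' (he : Ev e1 e2 e3 e4 e5) {XM r s0 s1 s2 s3 : ℕ} {v : ℝ} (h : Nrm e1 e2 e3 e4 e5 XM r s0 s1 s2 s3 v) :
    |2 ^ 40 * v| ≤ ((Nat.add s0 r : ℕ) : ℝ) := nrm_abs (ok he) h

theorem inv_aux (he : Ev e1 e2 e3 e4 e5) {Y A mu : ℕ} {v u : ℝ} (hu : u = 1 - v * ((A : ℝ) / 2 ^ 40)) (b1 : |2 ^ 40 * u| ≤ (mu : ℝ))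
    (c2 : Nat.ble mu 1099511627775 = true) (hY : In e1 e2 e3 e4 e5 Y ((∑ i ∈ range (3 + 1), u ^ i) * ((A : ℝ) / 2 ^ 40))) :
    In e1 e2 e3 e4 e5 (Nat.add Y (Nat.shiftLeft (Nat.add (Nat.div (Nat.mul A (Nat.pow mu 4)) (Nat.mul 1329227995784915872903807060280344576 (Nat.sub 1099511627776 mu))) 1) 26600)) v⁻¹ := by
  have b2 := inv_err 40 3 A mu hu b1 (by have := Nat.le_of_ble_eq_true c2; omega)
  have b3 := in_err (c := cfg e1 e2 e3 e4 e5) hY b2
  rw [shl0]
  exact b3

theorem invE_s (he : Ev e1 e2 e3 e4 e5) {X : ℕ} {v : ℝ} (h : In e1 e2 e3 e4 e5 X v) (H : invB X = true) : In e1 e2 e3 e4 e5 (invE X) v⁻¹ := by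
  unfold invB at H
  obtain ⟨c0, H⟩ := brc H
  obtain ⟨c1, H⟩ := brc H
  obtain ⟨c2, H⟩ := brc H
  obtain ⟨c3, H⟩ := brc H
  obtain ⟨c4, H⟩ := brc H
  obtain ⟨c5, c6⟩ := brc H
  have hP := mulcE_s he h (dyn_nrm he (ivA X)) c0
  have h1 : In e1 e2 e3 e4 e5 (iv1 X) _ := finE_s he (aa (a1 (one_in he)) (ng1_s he hP)) (by decide +kernel) c1
  obtain ⟨u, hu⟩ : ∃ u, u = 1 - v * ((ivA X : ℝ) / 2 ^ 40) := ⟨_, rfl⟩
  replace h1 : In e1 e2 e3 e4 e5 (iv1 X) u := In_cast h1 (by rw [hu]; ring)
  have h2 : In e1 e2 e3 e4 e5 (iv2 X) _ := mulE_s he h1 h1 c3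
  have h3 : In e1 e2 e3 e4 e5 (iv3 X) _ := mulE_s he h2 h1 c4
  have hS : In e1 e2 e3 e4 e5 (ivT X) _ := finE_s he (aa (aa (aa (a1 (one_in he)) (a1 h1)) (a1 h2)) (a1 h3)) (by decide +kernel) c5
  replace hS : In e1 e2 e3 e4 e5 (ivT X) (∑ i ∈ range (3 + 1), u ^ i) := In_cast hS (by simp [sum_range_succ]; ring)
  have hY := mulcE_s he hS (dyn_nrm he (ivA X)) c6
  have b1 : |2 ^ 40 * u| ≤ (ivM X : ℝ) := by unfold ivM; exact nrm_abs' he (nrmE_s he h1)
  unfold invE
  exact inv_aux he hu b1 c2 hY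

attribute [irreducible] invE invB

end

end Crest.Agent.TM.T53
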