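import Crest.Agent.Lib.TM.PsdV

/-! # Lib/TM/PsdC : congruence + vertex test of a symmetric 5x5 matrix of Taylor models (helper60, generated) -/

set_option autoImplicit false
set_option linter.unusedVariables false
set_option maxRecDepth 100000
set_option exponentiation.threshold 200000

namespace Crest.Agent.TM

open Finset Crest.Agent.Bern

theorem acc_smul {c : Cfg} {C X : ℕ} {v : ℝ} (n : ℕ) (h : c.Acc C X v) : c.Acc (n * C) (n * X) ((n : ℝ) * v) := by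
  obtain ⟨a, r, h1, h2, h3, h4⟩ := h
  refine ⟨fun t => n * a t, n * r, ?_, fun t ht => ?_, fun t ht hv => ?_, ?_⟩
  · rw [lin_pk_smul, h1]; ring
  · rw [mul_assoc]; exact Nat.mul_le_mul_left _ (h2 t ht)
  · show n * a t = _
    rw [h3 t ht hv, mul_assoc]
  · have e : 2 ^ c.F * ((n : ℝ) * v) - ∑ t ∈ range c.L, (((n * a t : ℕ) : ℝ) - ((n * C * 2 ^ c.K : ℕ) : ℝ)) * c.m t
        = n * (2 ^ c.F * v - ∑ t ∈ range c.L, ((a t : ℝ) - ((C * 2 ^ c.K : ℕ) : ℝ)) * c.m t) := by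
      rw [mul_sub, mul_sum]
      congr 1
      · ring
      · exact sum_congr rfl fun t _ => by push_cast; ring
    rw [e, abs_mul, Nat.abs_cast, Nat.cast_mul n r]
    exact mul_le_mul_of_nonneg_left h4 (Nat.cast_nonneg _)

namespace T53

open Crest.Agent.R307 Crest.Agent.R307.IA Crest.Agent.PSD
open Crest.Agent.R307.IA5 (Ev)

/-- selection by a sign bit -/
noncomputable def sl (s X Y : ℕ) : ℕ := @Nat.rec (fun _ => ℕ) X (fun _ _ => Y) s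
/-- signed value -/
noncomputable def sv (s n : ℕ) : ℝ := if s = 0 then (n : ℝ) else -(n : ℝ)

section
variable {e1 e2 e3 e4 e5 : ℝ}

theorem am {C X : ℕ} {v : ℝ} (n : ℕ) (h : Acc e1 e2 e3 e4 e5 C X v) : Acc e1 e2 e3 e4 e5 (n * C) (Nat.mul n X) ((n : ℝ) * v) := acc_smul n h

theorem asg {C X Y : ℕ} {v : ℝ} (s n : ℕ) (h : Acc e1 e2 e3 e4 e5 C X v) (h' : Acc e1 e2 e3 e4 e5 C Y (-v)) :
    Acc e1 e2 e3 e4 e5 (n * C) (Nat.mul n (sl s X Y)) (sv s n * v) := by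
  cases s with
  | zero => simpa [sv, sl] using am n h
  | succ s =>
    have h1 := am n h'
    have e : sv (s + 1) n * v = (n : ℝ) * -v := by simp [sv]
    rw [e]; exact h1

theorem Acc_cast {C C' X : ℕ} {v w : ℝ} (h : Acc e1 e2 e3 e4 e5 C X v) (e : C = C') (e' : v = w) : Acc e1 e2 e3 e4 e5 C' X w := e ▸ e' ▸ h

theorem ngD_s (he : Ev e1 e2 e3 e4 e5) {C X : ℕ} {v : ℝ} (h : Acc e1 e2 e3 e4 e5 C X v) (hb : C ≤ 163835) : Acc e1 e2 e3 e4 e5 C (ngC C X) (-v) :=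
  ngC_s he h (Nat.beq_refl C) (Nat.ble_eq_true_of_le (by omega))

noncomputable def finD (Z C C' : ℕ) (k : ℕ → Bool) : Bool :=
  finK Z (Nat.sub 1238242270740283932192800768 (Nat.mul (Nat.mul C C') 18014398509481984)) 24 k

theorem finD_s (he : Ev e1 e2 e3 e4 e5) {C C' Z : ℕ} {v : ℝ} {k : ℕ → Bool} {P : Prop} (h : Acc e1 e2 e3 e4 e5 (C * C') Z v)
    (hb : C ≤ 163835) (hb' : C' ≤ 163835) (hk : ∀ X, In e1 e2 e3 e4 e5 X (v / 2 ^ 24) → k X = true → P) (H : finD Z C C' k = true) : P := by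
  unfold finD at H
  refine finK_s he h ?_ hk H
  have h1 : C * C' ≤ 163835 * 163835 := Nat.mul_le_mul hb hb'
  unfold finOk
  simp only [Nat.mul_eq]
  generalize C * C' = n at h1
  have e1 : Nat.shiftLeft 73786976294838206464 24 = 1237940039285380274899124224 := by decide +kernel
  have e2 : Nat.shiftLeft 18014398509481984 24 = 302231454903657293676544 := by decide +kernel
  have e3 : Nat.shiftLeft 147573952589676412928 24 = 2475880078570760549798248448 := by decide +kernel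
  rw [e1, e2, e3]
  simp only [Bool.and_eq_true, Nat.add_eq, Nat.sub_eq, Nat.beq_eq, Nat.ble_eq]
  omega

theorem fld_le {z n : ℕ} (h : Nat.add (Nat.land z 32767) 1 = n + 1) : n ≤ 32767 := by
  rw [← succ_spec h]; exact Nat.and_le_right

end

theorem cong5 {v11 v21 v22 v31 v32 v33 v41 v42 v43 v44 v51 v52 v53 v54 v55 u11 u21 u22 u31 u32 u33 u41 u42 u43 u44 u51 u52 u53 u54 u55 : ℝ} (h1 : u11 ≠ 0) (h2 : u22 ≠ 0) (h3 : u33 ≠ 0) (h4 : u44 ≠ 0) (h5 : u55 ≠ 0)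
    (h : ∀ y1 y2 y3 y4 y5 : ℝ, 0 ≤ q5 v11 v21 v22 v31 v32 v33 v41 v42 v43 v44 v51 v52 v53 v54 v55 (u11 * y1 + u21 * y2 + u31 * y3 + u41 * y4 + u51 * y5) (u22 * y2 + u32 * y3 + u42 * y4 + u52 * y5) (u33 * y3 + u43 * y4 + u53 * y5) (u44 * y4 + u54 * y5) (u55 * y5))
    (x1 x2 x3 x4 x5 : ℝ) : 0 ≤ q5 v11 v21 v22 v31 v32 v33 v41 v42 v43 v44 v51 v52 v53 v54 v55 x1 x2 x3 x4 x5 := by
  obtain ⟨y5, e5⟩ : ∃ y, u55 * y = x5 := ⟨x5 / u55, by field_simp⟩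
  obtain ⟨y4, e4⟩ : ∃ y, u44 * y + u54 * y5 = x4 := ⟨(x4 - u54 * y5) / u44, by field_simp; ring⟩
  obtain ⟨y3, e3⟩ : ∃ y, u33 * y + u43 * y4 + u53 * y5 = x3 := ⟨(x3 - u43 * y4 - u53 * y5) / u33, by field_simp; ring⟩
  obtain ⟨y2, e2⟩ : ∃ y, u22 * y + u32 * y3 + u42 * y4 + u52 * y5 = x2 :=
    ⟨(x2 - u32 * y3 - u42 * y4 - u52 * y5) / u22, by field_simp; ring⟩
  obtain ⟨y1, e1⟩ : ∃ y, u11 * y + u21 * y2 + u31 * y3 + u41 * y4 + u51 * y5 = x1 :=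
    ⟨(x1 - u21 * y2 - u31 * y3 - u41 * y4 - u51 * y5) / u11, by field_simp; ring⟩
  have := h y1 y2 y3 y4 y5
  rwa [e1, e2, e3, e4, e5] at this

theorem cong5' {v11 v21 v22 v31 v32 v33 v41 v42 v43 v44 v51 v52 v53 v54 v55 u11 u21 u22 u31 u32 u33 u41 u42 u43 u44 u51 u52 u53 u54 u55 : ℝ} (h1 : u11 ≠ 0) (h2 : u22 ≠ 0) (h3 : u33 ≠ 0) (h4 : u44 ≠ 0) (h5 : u55 ≠ 0)
    (h : ∀ y1 y2 y3 y4 y5 : ℝ, 0 ≤ q5 ((u11 * (u11 * v11)) / 2 ^ 24) ((u11 * (u21 * v11 + u22 * v21)) / 2 ^ 24) ((u21 * (u21 * v11 + u22 * v21) + u22 * (u21 * v21 + u22 * v22)) / 2 ^ 24) ((u11 * (u31 * v11 + u32 * v21 + u33 * v31)) / 2 ^ 24) ((u21 * (u31 * v11 + u32 * v21 + u33 * v31) + u22 * (u31 * v21 + u32 * v22 + u33 * v32)) / 2 ^ 24) ((u31 * (u31 * v11 + u32 * v21 + u33 * v31) + u32 * (u31 * v21 + u32 * v22 + u33 * v32) + u33 * (u31 * v31 + u32 * v32 + u33 * v33)) / 2 ^ 24) ((u11 * (u41 * v11 + u42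 * v21 + u43 * v31 + u44 * v41)) / 2 ^ 24) ((u21 * (u41 * v11 + u42 * v21 + u43 * v31 + u44 * v41) + u22 * (u41 * v21 + u42 * v22 + u43 * v32 + u44 * v42)) / 2 ^ 24) ((u31 * (u41 * v11 + u42 * v21 + u43 * v31 + u44 * v41) + u32 * (u41 * v21 + u42 * v22 + u43 * v32 + u44 * v42) + u33 * (u41 * v31 + u42 * v32 + u43 * v33 + u44 * v43)) / 2 ^ 24) ((u41 * (u41 * v11 + u42 * v21 + u43 * v31 + u44 * v41) + u42 * (u41 * v21 + u42 * v22 + u43 * v32 + u44 * v42) + u43 * (u41 * v31 + u42 * v32 + u43 * v33 + u44 * v43) + u44 * (u41 * v41 + u42 * v42 + u43 * v43 + u44 * v44)) / 2 ^ 24) ((u11 * (u51 * v11 + u52 * v21 + u53 * v31 + u54 * v41 + u55 * v51)) / 2 ^ 24) ((u21 * (u51 * v11 + u52 * v21 + u53 * v31 + u54 * v41 + u55 * v51) + u22 * (u51 * v21 + u52 * v22 + u53 * v32 + u54 * v42 + u55 * v52)) / 2 ^ 24) ((u31 * (u51 * v11 + u52 * v21 + u53 * v31 + u54 * v41 + u55 *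 v51) + u32 * (u51 * v21 + u52 * v22 + u53 * v32 + u54 * v42 + u55 * v52) + u33 * (u51 * v31 + u52 * v32 + u53 * v33 + u54 * v43 + u55 * v53)) / 2 ^ 24) ((u41 * (u51 * v11 + u52 * v21 + u53 * v31 + u54 * v41 + u55 * v51) + u42 * (u51 * v21 + u52 * v22 + u53 * v32 + u54 * v42 + u55 * v52) + u43 * (u51 * v31 + u52 * v32 + u53 * v33 + u54 * v43 + u55 * v53) + u44 * (u51 * v41 + u52 * v42 + u53 * v43 + u54 * v44 + u55 * v54)) / 2 ^ 24) ((u51 * (u51 * v11 + u52 * v21 + u53 * v31 + u54 * v41 + u55 * v51) + u52 * (u51 * v21 + u52 * v22 + u53 * v32 + u54 * v42 + u55 * v52) + u53 * (u51 * v31 + u52 * v32 + u53 * v33 + u54 * v43 + u55 * v53) + u54 * (u51 * v41 + u52 * v42 + u53 * v43 + u54 * v44 + u55 * v54) + u55 * (u51 * v51 + u52 * v52 + u53 * v53 + u54 * v54 + u55 * v55)) / 2 ^ 24) y1 y2 y3 y4 y5)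
    (x1 x2 x3 x4 x5 : ℝ) : 0 ≤ q5 v11 v21 v22 v31 v32 v33 v41 v42 v43 v44 v51 v52 v53 v54 v55 x1 x2 x3 x4 x5 := by
  refine cong5 (u21 := u21) (u31 := u31) (u32 := u32) (u41 := u41) (u42 := u42) (u43 := u43) (u51 := u51) (u52 := u52) (u53 := u53) (u54 := u54)
    h1 h2 h3 h4 h5 (fun y1 y2 y3 y4 y5 => ?_) x1 x2 x3 x4 x5
  have h0 := h y1 y2 y3 y4 y5
  have e : q5 v11 v21 v22 v31 v32 v33 v41 v42 v43 v44 v51 v52 v53 v54 v55 (u11 * y1 + u21 * y2 + u31 * y3 + u41 * y4 + u51 * y5) (u22 * y2 + u32 * y3 + u42 * y4 + u52 * y5) (u33 * y3 + u43 * y4 + u53 * y5) (u44 * y4 + u54 * y5) (u55 * y5)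
      = 2 ^ 24 * q5 ((u11 * (u11 * v11)) / 2 ^ 24) ((u11 * (u21 * v11 + u22 * v21)) / 2 ^ 24) ((u21 * (u21 * v11 + u22 * v21) + u22 * (u21 * v21 + u22 * v22)) / 2 ^ 24) ((u11 * (u31 * v11 + u32 * v21 + u33 * v31)) / 2 ^ 24) ((u21 * (u31 * v11 + u32 * v21 + u33 * v31) + u22 * (u31 * v21 + u32 * v22 + u33 * v32)) / 2 ^ 24) ((u31 * (u31 * v11 + u32 * v21 + u33 * v31) + u32 * (u31 * v21 + u32 * v22 + u33 * v32) + u33 * (u31 * v31 + u32 * v32 + u33 * v33)) / 2 ^ 24) ((u11 * (u41 * v11 + u42 * v21 + u43 * v31 + u44 * v41)) / 2 ^ 24) ((u21 * (u41 * v11 + u42 * v21 + u43 * v31 + u44 * v41) + u22 * (u41 * v21 + u42 * v22 + u43 * v32 + u44 * v42)) / 2 ^ 24) ((u31 * (u41 * v11 + u42 * v21 + u43 * v31 + u44 * v41) + u32 * (u41 * v21 + u42 * v22 + u43 * v32 + u44 * v42) + u33 * (u41 * v31 + u42 * v32 + u43 * v33 + u44 * v43)) / 2 ^ 24) ((u41 * (u41 * v11 + u42 * v21 +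 u43 * v31 + u44 * v41) + u42 * (u41 * v21 + u42 * v22 + u43 * v32 + u44 * v42) + u43 * (u41 * v31 + u42 * v32 + u43 * v33 + u44 * v43) + u44 * (u41 * v41 + u42 * v42 + u43 * v43 + u44 * v44)) / 2 ^ 24) ((u11 * (u51 * v11 + u52 * v21 + u53 * v31 + u54 * v41 + u55 * v51)) / 2 ^ 24) ((u21 * (u51 * v11 + u52 * v21 + u53 * v31 + u54 * v41 + u55 * v51) + u22 * (u51 * v21 + u52 * v22 + u53 * v32 + u54 * v42 + u55 * v52)) / 2 ^ 24) ((u31 * (u51 * v11 + u52 * v21 + u53 * v31 + u54 * v41 + u55 * v51) + u32 * (u51 * v21 + u52 * v22 + u53 * v32 + u54 * v42 + u55 * v52) + u33 * (u51 * v31 + u52 * v32 + u53 * v33 + u54 * v43 + u55 * v53)) / 2 ^ 24) ((u41 * (u51 * v11 + u52 * v21 + u53 * v31 + u54 * v41 + u55 * v51) + u42 * (u51 * v21 + u52 * v22 + u53 * v32 + u54 * v42 + u55 * v52) + u43 * (u51 * v31 + u52 * v32 + u53 * v33 + u54 * v43 + u55 * v53) + u44 * (u51 * v41 +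 u52 * v42 + u53 * v43 + u54 * v44 + u55 * v54)) / 2 ^ 24) ((u51 * (u51 * v11 + u52 * v21 + u53 * v31 + u54 * v41 + u55 * v51) + u52 * (u51 * v21 + u52 * v22 + u53 * v32 + u54 * v42 + u55 * v52) + u53 * (u51 * v31 + u52 * v32 + u53 * v33 + u54 * v43 + u55 * v53) + u54 * (u51 * v41 + u52 * v42 + u53 * v43 + u54 * v44 + u55 * v54) + u55 * (u51 * v51 + u52 * v52 + u53 * v53 + u54 * v54 + u55 * v55)) / 2 ^ 24) y1 y2 y3 y4 y5 := by
    unfold q5; ring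
  rw [e]; positivity

attribute [local irreducible] vtxK

noncomputable def psdK (u X11 X21 X22 X31 X32 X33 X41 X42 X43 X44 X51 X52 X53 X54 X55 : ℕ) : Bool :=
  fB (Nat.add (Nat.land u 32767) 1) fun n11 =>
  iB (Nat.ble 1 n11) false (
  fB (Nat.add (Nat.land (Nat.shiftRight u 16) 32767) 1) fun n21 =>
  fB (Nat.add (Nat.land (Nat.shiftRight u 31) 1) 1) fun s21 =>
  fB (Nat.add (Nat.land (Nat.shiftRight u 32) 32767) 1) fun n22 =>
  iB (Nat.ble 1 n22) false (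
  fB (Nat.add (Nat.land (Nat.shiftRight u 48) 32767) 1) fun n31 =>
  fB (Nat.add (Nat.land (Nat.shiftRight u 63) 1) 1) fun s31 =>
  fB (Nat.add (Nat.land (Nat.shiftRight u 64) 32767) 1) fun n32 =>
  fB (Nat.add (Nat.land (Nat.shiftRight u 79) 1) 1) fun s32 =>
  fB (Nat.add (Nat.land (Nat.shiftRight u 80) 32767) 1) fun n33 =>
  iB (Nat.ble 1 n33) false (
  fB (Nat.add (Nat.land (Nat.shiftRight u 96) 32767) 1) fun n41 =>
  fB (Nat.add (Nat.land (Nat.shiftRight u 111) 1) 1) fun s41 =>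
  fB (Nat.add (Nat.land (Nat.shiftRight u 112) 32767) 1) fun n42 =>
  fB (Nat.add (Nat.land (Nat.shiftRight u 127) 1) 1) fun s42 =>
  fB (Nat.add (Nat.land (Nat.shiftRight u 128) 32767) 1) fun n43 =>
  fB (Nat.add (Nat.land (Nat.shiftRight u 143) 1) 1) fun s43 =>
  fB (Nat.add (Nat.land (Nat.shiftRight u 144) 32767) 1) fun n44 =>
  iB (Nat.ble 1 n44) false (
  fB (Nat.add (Nat.land (Nat.shiftRight u 160) 32767) 1) fun n51 =>
  fB (Nat.add (Nat.land (Nat.shiftRight u 175) 1) 1) fun s51 =>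
  fB (Nat.add (Nat.land (Nat.shiftRight u 176) 32767) 1) fun n52 =>
  fB (Nat.add (Nat.land (Nat.shiftRight u 191) 1) 1) fun s52 =>
  fB (Nat.add (Nat.land (Nat.shiftRight u 192) 32767) 1) fun n53 =>
  fB (Nat.add (Nat.land (Nat.shiftRight u 207) 1) 1) fun s53 =>
  fB (Nat.add (Nat.land (Nat.shiftRight u 208) 32767) 1) fun n54 =>
  fB (Nat.add (Nat.land (Nat.shiftRight u 223) 1) 1) fun s54 =>
  fB (Nat.add (Nat.land (Nat.shiftRight u 224) 32767) 1) fun n55 =>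
  iB (Nat.ble 1 n55) false (
  frcK (ng1 X11) fun N11 =>
  frcK (ng1 X21) fun N21 =>
  frcK (ng1 X22) fun N22 =>
  frcK (ng1 X31) fun N31 =>
  frcK (ng1 X32) fun N32 =>
  frcK (ng1 X33) fun N33 =>
  frcK (ng1 X41) fun N41 =>
  frcK (ng1 X42) fun N42 =>
  frcK (ng1 X43) fun N43 =>
  frcK (ng1 X44) fun N44 =>
  frcK (ng1 X51) fun N51 =>
  frcK (ng1 X52) fun N52 =>
  frcK (ng1 X53) fun N53 =>
  frcK (ng1 X54) fun N54 =>
  frcK (Nat.mul n11 X11) fun Y11 =>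
  finD (Nat.mul n11 Y11) n11 n11 fun T11 =>
  fB (Nat.add (Nat.add n21 n22) 1) fun C2 =>
  frcK (Nat.add (Nat.mul n21 (sl s21 X11 N11)) (Nat.mul n22 X21)) fun Y21 =>
  frcK (ngC C2 Y21) fun Z21 =>
  frcK (Nat.add (Nat.mul n21 (sl s21 X21 N21)) (Nat.mul n22 X22)) fun Y22 =>
  finD (Nat.mul n11 Y21) n11 C2 fun T21 =>
  finD (Nat.add (Nat.mul n21 (sl s21 Y21 Z21)) (Nat.mul n22 Y22)) C2 C2 fun T22 =>
  fB (Nat.add (Nat.add (Nat.add n31 n32) n33) 1) fun C3 =>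
  frcK (Nat.add (Nat.add (Nat.mul n31 (sl s31 X11 N11)) (Nat.mul n32 (sl s32 X21 N21))) (Nat.mul n33 X31)) fun Y31 =>
  frcK (ngC C3 Y31) fun Z31 =>
  frcK (Nat.add (Nat.add (Nat.mul n31 (sl s31 X21 N21)) (Nat.mul n32 (sl s32 X22 N22))) (Nat.mul n33 X32)) fun Y32 =>
  frcK (ngC C3 Y32) fun Z32 =>
  frcK (Nat.add (Nat.add (Nat.mul n31 (sl s31 X31 N31)) (Nat.mul n32 (sl s32 X32 N32))) (Nat.mul n33 X33)) fun Y33 =>
  finD (Nat.mul n11 Y31) n11 C3 fun T31 =>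
  finD (Nat.add (Nat.mul n21 (sl s21 Y31 Z31)) (Nat.mul n22 Y32)) C2 C3 fun T32 =>
  finD (Nat.add (Nat.add (Nat.mul n31 (sl s31 Y31 Z31)) (Nat.mul n32 (sl s32 Y32 Z32))) (Nat.mul n33 Y33)) C3 C3 fun T33 =>
  fB (Nat.add (Nat.add (Nat.add (Nat.add n41 n42) n43) n44) 1) fun C4 =>
  frcK (Nat.add (Nat.add (Nat.add (Nat.mul n41 (sl s41 X11 N11)) (Nat.mul n42 (sl s42 X21 N21))) (Nat.mul n43 (sl s43 X31 N31))) (Nat.mul n44 X41)) fun Y41 =>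
  frcK (ngC C4 Y41) fun Z41 =>
  frcK (Nat.add (Nat.add (Nat.add (Nat.mul n41 (sl s41 X21 N21)) (Nat.mul n42 (sl s42 X22 N22))) (Nat.mul n43 (sl s43 X32 N32))) (Nat.mul n44 X42)) fun Y42 =>
  frcK (ngC C4 Y42) fun Z42 =>
  frcK (Nat.add (Nat.add (Nat.add (Nat.mul n41 (sl s41 X31 N31)) (Nat.mul n42 (sl s42 X32 N32))) (Nat.mul n43 (sl s43 X33 N33))) (Nat.mul n44 X43)) fun Y43 =>
  frcK (ngC C4 Y43) fun Z43 =>
  frcK (Nat.add (Nat.add (Nat.add (Nat.mul n41 (sl s41 X41 N41)) (Nat.mul n42 (sl s42 X42 N42))) (Nat.mul n43 (sl s43 X43 N43))) (Nat.mul n44 X44)) fun Y44 =>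
  finD (Nat.mul n11 Y41) n11 C4 fun T41 =>
  finD (Nat.add (Nat.mul n21 (sl s21 Y41 Z41)) (Nat.mul n22 Y42)) C2 C4 fun T42 =>
  finD (Nat.add (Nat.add (Nat.mul n31 (sl s31 Y41 Z41)) (Nat.mul n32 (sl s32 Y42 Z42))) (Nat.mul n33 Y43)) C3 C4 fun T43 =>
  finD (Nat.add (Nat.add (Nat.add (Nat.mul n41 (sl s41 Y41 Z41)) (Nat.mul n42 (sl s42 Y42 Z42))) (Nat.mul n43 (sl s43 Y43 Z43))) (Nat.mul n44 Y44)) C4 C4 fun T44 =>
  fB (Nat.add (Nat.add (Nat.add (Nat.add (Nat.add n51 n52) n53) n54) n55) 1) fun C5 =>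
  frcK (Nat.add (Nat.add (Nat.add (Nat.add (Nat.mul n51 (sl s51 X11 N11)) (Nat.mul n52 (sl s52 X21 N21))) (Nat.mul n53 (sl s53 X31 N31))) (Nat.mul n54 (sl s54 X41 N41))) (Nat.mul n55 X51)) fun Y51 =>
  frcK (ngC C5 Y51) fun Z51 =>
  frcK (Nat.add (Nat.add (Nat.add (Nat.add (Nat.mul n51 (sl s51 X21 N21)) (Nat.mul n52 (sl s52 X22 N22))) (Nat.mul n53 (sl s53 X32 N32))) (Nat.mul n54 (sl s54 X42 N42))) (Nat.mul n55 X52)) fun Y52 =>
  frcK (ngC C5 Y52) fun Z52 =>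
  frcK (Nat.add (Nat.add (Nat.add (Nat.add (Nat.mul n51 (sl s51 X31 N31)) (Nat.mul n52 (sl s52 X32 N32))) (Nat.mul n53 (sl s53 X33 N33))) (Nat.mul n54 (sl s54 X43 N43))) (Nat.mul n55 X53)) fun Y53 =>
  frcK (ngC C5 Y53) fun Z53 =>
  frcK (Nat.add (Nat.add (Nat.add (Nat.add (Nat.mul n51 (sl s51 X41 N41)) (Nat.mul n52 (sl s52 X42 N42))) (Nat.mul n53 (sl s53 X43 N43))) (Nat.mul n54 (sl s54 X44 N44))) (Nat.mul n55 X54)) fun Y54 =>
  frcK (ngC C5 Y54) fun Z54 =>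
  frcK (Nat.add (Nat.add (Nat.add (Nat.add (Nat.mul n51 (sl s51 X51 N51)) (Nat.mul n52 (sl s52 X52 N52))) (Nat.mul n53 (sl s53 X53 N53))) (Nat.mul n54 (sl s54 X54 N54))) (Nat.mul n55 X55)) fun Y55 =>
  finD (Nat.mul n11 Y51) n11 C5 fun T51 =>
  finD (Nat.add (Nat.mul n21 (sl s21 Y51 Z51)) (Nat.mul n22 Y52)) C2 C5 fun T52 =>
  finD (Nat.add (Nat.add (Nat.mul n31 (sl s31 Y51 Z51)) (Nat.mul n32 (sl s32 Y52 Z52))) (Nat.mul n33 Y53)) C3 C5 fun T53 =>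
  finD (Nat.add (Nat.add (Nat.add (Nat.mul n41 (sl s41 Y51 Z51)) (Nat.mul n42 (sl s42 Y52 Z52))) (Nat.mul n43 (sl s43 Y53 Z53))) (Nat.mul n44 Y54)) C4 C5 fun T54 =>
  finD (Nat.add (Nat.add (Nat.add (Nat.add (Nat.mul n51 (sl s51 Y51 Z51)) (Nat.mul n52 (sl s52 Y52 Z52))) (Nat.mul n53 (sl s53 Y53 Z53))) (Nat.mul n54 (sl s54 Y54 Z54))) (Nat.mul n55 Y55)) C5 C5 fun T55 =>
  vtxK T11 T21 T22 T31 T32 T33 T41 T42 T43 T44 T51 T52 T53 T54 T55)))))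

theorem psdK_s {e1 e2 e3 e4 e5 : ℝ} (he : Ev e1 e2 e3 e4 e5) {u X11 X21 X22 X31 X32 X33 X41 X42 X43 X44 X51 X52 X53 X54 X55 : ℕ} {v11 v21 v22 v31 v32 v33 v41 v42 v43 v44 v51 v52 v53 v54 v55 : ℝ}
    (h11 : In e1 e2 e3 e4 e5 X11 v11) (h21 : In e1 e2 e3 e4 e5 X21 v21) (h22 : In e1 e2 e3 e4 e5 X22 v22) (h31 : In e1 e2 e3 e4 e5 X31 v31) (h32 : In e1 e2 e3 e4 e5 X32 v32) (h33 : In e1 e2 e3 e4 e5 X33 v33) (h41 : In e1 e2 e3 e4 e5 X41 v41) (h42 : In e1 e2 e3 e4 e5 X42 v42) (h43 : In e1 e2 e3 e4 e5 X43 v43) (h44 : In e1 e2 e3 e4 e5 X44 v44) (h51 : In e1 e2 e3 e4 e5 X51 v51) (h52 : In e1 e2 e3 e4 e5 X52 v52) (h53 : In e1 e2 e3 e4 e5 X53 v53) (h54 : In e1 e2 e3 e4 e5 X54 v54) (h55 : In e1 e2 e3 e4 e5 X55 v55)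
    (H : psdK u X11 X21 X22 X31 X32 X33 X41 X42 X43 X44 X51 X52 X53 X54 X55 = true) (x1 x2 x3 x4 x5 : ℝ) : 0 ≤ q5 v11 v21 v22 v31 v32 v33 v41 v42 v43 v44 v51 v52 v53 v54 v55 x1 x2 x3 x4 x5 := by
  unfold psdK at H
  obtain ⟨n11, hn11, H⟩ := frc H
  replace hn11 := fld_le hn11
  obtain ⟨hp1, H⟩ := brc H
  replace hp1 : ((n11 : ℕ) : ℝ) ≠ 0 := by
    have := Nat.le_of_ble_eq_true hp1
    exact Nat.cast_ne_zero.2 (by omega)
  obtain ⟨n21, hn21, H⟩ := frc H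
  replace hn21 := fld_le hn21
  obtain ⟨s21, -, H⟩ := frc H
  obtain ⟨n22, hn22, H⟩ := frc H
  replace hn22 := fld_le hn22
  obtain ⟨hp2, H⟩ := brc H
  replace hp2 : ((n22 : ℕ) : ℝ) ≠ 0 := by
    have := Nat.le_of_ble_eq_true hp2
    exact Nat.cast_ne_zero.2 (by omega)
  obtain ⟨n31, hn31, H⟩ := frc H
  replace hn31 := fld_le hn31
  obtain ⟨s31, -, H⟩ := frc H
  obtain ⟨n32, hn32, H⟩ := frc H
  replace hn32 := fld_le hn32
  obtain ⟨s32, -, H⟩ := frc H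
  obtain ⟨n33, hn33, H⟩ := frc H
  replace hn33 := fld_le hn33
  obtain ⟨hp3, H⟩ := brc H
  replace hp3 : ((n33 : ℕ) : ℝ) ≠ 0 := by
    have := Nat.le_of_ble_eq_true hp3
    exact Nat.cast_ne_zero.2 (by omega)
  obtain ⟨n41, hn41, H⟩ := frc H
  replace hn41 := fld_le hn41
  obtain ⟨s41, -, H⟩ := frc H
  obtain ⟨n42, hn42, H⟩ := frc H
  replace hn42 := fld_le hn42
  obtain ⟨s42, -, H⟩ := frc H
  obtain ⟨n43, hn43, H⟩ := frc H
  replace hn43 := fld_le hn43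
  obtain ⟨s43, -, H⟩ := frc H
  obtain ⟨n44, hn44, H⟩ := frc H
  replace hn44 := fld_le hn44
  obtain ⟨hp4, H⟩ := brc H
  replace hp4 : ((n44 : ℕ) : ℝ) ≠ 0 := by
    have := Nat.le_of_ble_eq_true hp4
    exact Nat.cast_ne_zero.2 (by omega)
  obtain ⟨n51, hn51, H⟩ := frc H
  replace hn51 := fld_le hn51
  obtain ⟨s51, -, H⟩ := frc H
  obtain ⟨n52, hn52, H⟩ := frc H
  replace hn52 := fld_le hn52
  obtain ⟨s52, -, H⟩ := frc H
  obtain ⟨n53, hn53, H⟩ := frc H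
  replace hn53 := fld_le hn53
  obtain ⟨s53, -, H⟩ := frc H
  obtain ⟨n54, hn54, H⟩ := frc H
  replace hn54 := fld_le hn54
  obtain ⟨s54, -, H⟩ := frc H
  obtain ⟨n55, hn55, H⟩ := frc H
  replace hn55 := fld_le hn55
  obtain ⟨hp5, H⟩ := brc H
  replace hp5 : ((n55 : ℕ) : ℝ) ≠ 0 := by
    have := Nat.le_of_ble_eq_true hp5
    exact Nat.cast_ne_zero.2 (by omega)
  refine frcK_s (ng1_s he h11) (fun N11 g11 H => ?_) H
  refine frcK_s (ng1_s he h21) (fun N21 g21 H => ?_) H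
  refine frcK_s (ng1_s he h22) (fun N22 g22 H => ?_) H
  refine frcK_s (ng1_s he h31) (fun N31 g31 H => ?_) H
  refine frcK_s (ng1_s he h32) (fun N32 g32 H => ?_) H
  refine frcK_s (ng1_s he h33) (fun N33 g33 H => ?_) H
  refine frcK_s (ng1_s he h41) (fun N41 g41 H => ?_) H
  refine frcK_s (ng1_s he h42) (fun N42 g42 H => ?_) H
  refine frcK_s (ng1_s he h43) (fun N43 g43 H => ?_) H
  refine frcK_s (ng1_s he h44) (fun N44 g44 H => ?_) H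
  refine frcK_s (ng1_s he h51) (fun N51 g51 H => ?_) H
  refine frcK_s (ng1_s he h52) (fun N52 g52 H => ?_) H
  refine frcK_s (ng1_s he h53) (fun N53 g53 H => ?_) H
  refine frcK_s (ng1_s he h54) (fun N54 g54 H => ?_) H
  have hC1 : n11 ≤ 163835 := by omega
  refine frcK_s (Acc_cast (C' := n11) (am n11 (a1 h11)) (by simp) rfl) (fun Y11 y11 H => ?_) H
  refine finD_s he (Acc_cast (C' := n11 * n11) (am n11 y11) rfl rfl) hC1 hC1 (fun T11 t11 H => ?_) H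
  obtain ⟨C2, hc2, H⟩ := frc H
  replace hc2 : n21 + n22 = C2 := succ_spec hc2
  have hC2 : C2 ≤ 163835 := by omega
  refine frcK_s (Acc_cast (C' := C2) (aa (asg s21 n21 (a1 h11) g11) (am n22 (a1 h21))) (by rw [← hc2]; simp only [Nat.add_eq, mul_one]) rfl) (fun Y21 y21 H => ?_) H
  refine frcK_s (ngD_s he y21 hC2) (fun Z21 z21 H => ?_) H
  refine frcK_s (Acc_cast (C' := C2) (aa (asg s21 n21 (a1 h21) g21) (am n22 (a1 h22))) (by rw [← hc2]; simp only [Nat.add_eq, mul_one]) rfl) (fun Y22 y22 H => ?_) H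
  refine finD_s he (Acc_cast (C' := n11 * C2) (am n11 y21) rfl rfl) hC1 hC2 (fun T21 t21 H => ?_) H
  refine finD_s he (Acc_cast (C' := C2 * C2) (aa (asg s21 n21 y21 z21) (am n22 y22)) (by simp only [Nat.add_eq, ← add_mul, hc2]) rfl) hC2 hC2 (fun T22 t22 H => ?_) H
  obtain ⟨C3, hc3, H⟩ := frc H
  replace hc3 : n31 + n32 + n33 = C3 := succ_spec hc3
  have hC3 : C3 ≤ 163835 := by omega
  refine frcK_s (Acc_cast (C' := C3) (aa (aa (asg s31 n31 (a1 h11) g11) (asg s32 n32 (a1 h21) g21)) (am n33 (a1 h31))) (by rw [← hc3]; simp only [Nat.add_eq, mul_one]) rfl) (fun Y31 y31 H => ?_) H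
  refine frcK_s (ngD_s he y31 hC3) (fun Z31 z31 H => ?_) H
  refine frcK_s (Acc_cast (C' := C3) (aa (aa (asg s31 n31 (a1 h21) g21) (asg s32 n32 (a1 h22) g22)) (am n33 (a1 h32))) (by rw [← hc3]; simp only [Nat.add_eq, mul_one]) rfl) (fun Y32 y32 H => ?_) H
  refine frcK_s (ngD_s he y32 hC3) (fun Z32 z32 H => ?_) H
  refine frcK_s (Acc_cast (C' := C3) (aa (aa (asg s31 n31 (a1 h31) g31) (asg s32 n32 (a1 h32) g32)) (am n33 (a1 h33))) (by rw [← hc3]; simp only [Nat.add_eq, mul_one]) rfl) (fun Y33 y33 H => ?_) H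
  refine finD_s he (Acc_cast (C' := n11 * C3) (am n11 y31) rfl rfl) hC1 hC3 (fun T31 t31 H => ?_) H
  refine finD_s he (Acc_cast (C' := C2 * C3) (aa (asg s21 n21 y31 z31) (am n22 y32)) (by simp only [Nat.add_eq, ← add_mul, hc2]) rfl) hC2 hC3 (fun T32 t32 H => ?_) H
  refine finD_s he (Acc_cast (C' := C3 * C3) (aa (aa (asg s31 n31 y31 z31) (asg s32 n32 y32 z32)) (am n33 y33)) (by simp only [Nat.add_eq, ← add_mul, hc3]) rfl) hC3 hC3 (fun T33 t33 H => ?_) H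
  obtain ⟨C4, hc4, H⟩ := frc H
  replace hc4 : n41 + n42 + n43 + n44 = C4 := succ_spec hc4
  have hC4 : C4 ≤ 163835 := by omega
  refine frcK_s (Acc_cast (C' := C4) (aa (aa (aa (asg s41 n41 (a1 h11) g11) (asg s42 n42 (a1 h21) g21)) (asg s43 n43 (a1 h31) g31)) (am n44 (a1 h41))) (by rw [← hc4]; simp only [Nat.add_eq, mul_one]) rfl) (fun Y41 y41 H => ?_) H
  refine frcK_s (ngD_s he y41 hC4) (fun Z41 z41 H => ?_) H
  refine frcK_s (Acc_cast (C' := C4) (aa (aa (aa (asg s41 n41 (a1 h21) g21) (asg s42 n42 (a1 h22) g22)) (asg s43 n43 (a1 h32) g32)) (am n44 (a1 h42))) (by rw [← hc4]; simp only [Nat.add_eq, mul_one]) rfl) (fun Y42 y42 H => ?_) H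
  refine frcK_s (ngD_s he y42 hC4) (fun Z42 z42 H => ?_) H
  refine frcK_s (Acc_cast (C' := C4) (aa (aa (aa (asg s41 n41 (a1 h31) g31) (asg s42 n42 (a1 h32) g32)) (asg s43 n43 (a1 h33) g33)) (am n44 (a1 h43))) (by rw [← hc4]; simp only [Nat.add_eq, mul_one]) rfl) (fun Y43 y43 H => ?_) H
  refine frcK_s (ngD_s he y43 hC4) (fun Z43 z43 H => ?_) H
  refine frcK_s (Acc_cast (C' := C4) (aa (aa (aa (asg s41 n41 (a1 h41) g41) (asg s42 n42 (a1 h42) g42)) (asg s43 n43 (a1 h43) g43)) (am n44 (a1 h44))) (by rw [← hc4]; simp only [Nat.add_eq, mul_one]) rfl) (fun Y44 y44 H => ?_) H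
  refine finD_s he (Acc_cast (C' := n11 * C4) (am n11 y41) rfl rfl) hC1 hC4 (fun T41 t41 H => ?_) H
  refine finD_s he (Acc_cast (C' := C2 * C4) (aa (asg s21 n21 y41 z41) (am n22 y42)) (by simp only [Nat.add_eq, ← add_mul, hc2]) rfl) hC2 hC4 (fun T42 t42 H => ?_) H
  refine finD_s he (Acc_cast (C' := C3 * C4) (aa (aa (asg s31 n31 y41 z41) (asg s32 n32 y42 z42)) (am n33 y43)) (by simp only [Nat.add_eq, ← add_mul, hc3]) rfl) hC3 hC4 (fun T43 t43 H => ?_) H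
  refine finD_s he (Acc_cast (C' := C4 * C4) (aa (aa (aa (asg s41 n41 y41 z41) (asg s42 n42 y42 z42)) (asg s43 n43 y43 z43)) (am n44 y44)) (by simp only [Nat.add_eq, ← add_mul, hc4]) rfl) hC4 hC4 (fun T44 t44 H => ?_) H
  obtain ⟨C5, hc5, H⟩ := frc H
  replace hc5 : n51 + n52 + n53 + n54 + n55 = C5 := succ_spec hc5
  have hC5 : C5 ≤ 163835 := by omega
  refine frcK_s (Acc_cast (C' := C5) (aa (aa (aa (aa (asg s51 n51 (a1 h11) g11) (asg s52 n52 (a1 h21) g21)) (asg s53 n53 (a1 h31) g31)) (asg s54 n54 (a1 h41) g41)) (am n55 (a1 h51))) (by rw [← hc5]; simp only [Nat.add_eq, mul_one]) rfl) (fun Y51 y51 H => ?_) H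
  refine frcK_s (ngD_s he y51 hC5) (fun Z51 z51 H => ?_) H
  refine frcK_s (Acc_cast (C' := C5) (aa (aa (aa (aa (asg s51 n51 (a1 h21) g21) (asg s52 n52 (a1 h22) g22)) (asg s53 n53 (a1 h32) g32)) (asg s54 n54 (a1 h42) g42)) (am n55 (a1 h52))) (by rw [← hc5]; simp only [Nat.add_eq, mul_one]) rfl) (fun Y52 y52 H => ?_) H
  refine frcK_s (ngD_s he y52 hC5) (fun Z52 z52 H => ?_) H
  refine frcK_s (Acc_cast (C' := C5) (aa (aa (aa (aa (asg s51 n51 (a1 h31) g31) (asg s52 n52 (a1 h32) g32)) (asg s53 n53 (a1 h33) g33)) (asg s54 n54 (a1 h43) g43)) (am n55 (a1 h53))) (by rw [← hc5]; simp only [Nat.add_eq, mul_one]) rfl) (fun Y53 y53 H => ?_) H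
  refine frcK_s (ngD_s he y53 hC5) (fun Z53 z53 H => ?_) H
  refine frcK_s (Acc_cast (C' := C5) (aa (aa (aa (aa (asg s51 n51 (a1 h41) g41) (asg s52 n52 (a1 h42) g42)) (asg s53 n53 (a1 h43) g43)) (asg s54 n54 (a1 h44) g44)) (am n55 (a1 h54))) (by rw [← hc5]; simp only [Nat.add_eq, mul_one]) rfl) (fun Y54 y54 H => ?_) H
  refine frcK_s (ngD_s he y54 hC5) (fun Z54 z54 H => ?_) H
  refine frcK_s (Acc_cast (C' := C5) (aa (aa (aa (aa (asg s51 n51 (a1 h51) g51) (asg s52 n52 (a1 h52) g52)) (asg s53 n53 (a1 h53) g53)) (asg s54 n54 (a1 h54) g54)) (am n55 (a1 h55))) (by rw [← hc5]; simp only [Nat.add_eq, mul_one]) rfl) (fun Y55 y55 H => ?_) H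
  refine finD_s he (Acc_cast (C' := n11 * C5) (am n11 y51) rfl rfl) hC1 hC5 (fun T51 t51 H => ?_) H
  refine finD_s he (Acc_cast (C' := C2 * C5) (aa (asg s21 n21 y51 z51) (am n22 y52)) (by simp only [Nat.add_eq, ← add_mul, hc2]) rfl) hC2 hC5 (fun T52 t52 H => ?_) H
  refine finD_s he (Acc_cast (C' := C3 * C5) (aa (aa (asg s31 n31 y51 z51) (asg s32 n32 y52 z52)) (am n33 y53)) (by simp only [Nat.add_eq, ← add_mul, hc3]) rfl) hC3 hC5 (fun T53 t53 H => ?_) H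
  refine finD_s he (Acc_cast (C' := C4 * C5) (aa (aa (aa (asg s41 n41 y51 z51) (asg s42 n42 y52 z52)) (asg s43 n43 y53 z53)) (am n44 y54)) (by simp only [Nat.add_eq, ← add_mul, hc4]) rfl) hC4 hC5 (fun T54 t54 H => ?_) H
  refine finD_s he (Acc_cast (C' := C5 * C5) (aa (aa (aa (aa (asg s51 n51 y51 z51) (asg s52 n52 y52 z52)) (asg s53 n53 y53 z53)) (asg s54 n54 y54 z54)) (am n55 y55)) (by simp only [Nat.add_eq, ← add_mul, hc5]) rfl) hC5 hC5 (fun T55 t55 H => ?_) H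
  exact cong5' hp1 hp2 hp3 hp4 hp5 (vtxK_s he t11 t21 t22 t31 t32 t33 t41 t42 t43 t44 t51 t52 t53 t54 t55 H) x1 x2 x3 x4 x5

attribute [irreducible] psdK

end T53

end Crest.Agent.TM
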