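import Crest.Agent.Lib.TM.PsdB
import Crest.Agent.Lib.PSD.Lazy

/-! # Lib/TM/PsdV : vertex test of a symmetric 5x5 matrix of Taylor models (helper60, generated) -/

set_option autoImplicit false
set_option linter.unusedVariables false
set_option maxRecDepth 100000
set_option exponentiation.threshold 200000

namespace Crest.Agent.TM.T53

open Finset Crest.Agent.Bern Crest.Agent.TM Crest.Agent.R307 Crest.Agent.R307.IA Crest.Agent.PSD
open Crest.Agent.R307.IA5 (Ev)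

theorem msum_le {X M : ℕ} (hX : Bd X) (hM : isMask M) : msum X M ≤ 18446744073709551616 := by
  rw [msum_eq hX hM]
  have h : ∑ t ∈ range 280, lane 95 X t * ind M t ≤ ∑ t ∈ range 280, 36028797018963967 := by
    refine sum_le_sum fun t ht => ?_
    have h1 := hX t (mem_range.1 ht)
    have h2 : ind M t ≤ 1 := by unfold ind; split <;> omega
    calc lane 95 X t * ind M t ≤ 36028797018963967 * 1 := Nat.mul_le_mul h1 h2
      _ = _ := by norm_num
  rw [sum_const, card_range, smul_eq_mul] at h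
  omega

theorem vOk_mask {b1 b2 b3 b4 b5 : Bool} {M n : ℕ} (h : vOk b1 b2 b3 b4 b5 M n = true) : isMask M := by
  unfold vOk at h
  simp only [Bool.and_eq_true, List.all_eq_true, List.mem_range, Bool.or_eq_true, beq_iff_eq] at h
  exact ⟨by simpa [Nat.blt_eq] using h.1.1, fun t ht => (h.1.2 t ht).1⟩

theorem mask_of {M : ℕ} (h : (Nat.blt M (2 ^ (95 * 280)) && (List.range 280).all (fun t => (lane 95 M t == 0 || lane 95 M t == 2 ^ 95 - 1))) = true) : isMask M := by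
  simp only [Bool.and_eq_true, List.all_eq_true, List.mem_range, Bool.or_eq_true, beq_iff_eq] at h
  exact ⟨by simpa [Nat.blt_eq] using h.1, fun t ht => h.2 t ht⟩

theorem mML_m : isMask mML := mask_of (by decide +kernel)
theorem mSQ_m : isMask mSQ := mask_of (by decide +kernel)

/-- the vertex-independent part of the vertex values (biased by `2^67`), `d` is subtracted -/
noncomputable def bas (X d : ℕ) : ℕ := Nat.sub (Nat.add (msum X mSQ) 148420629319622066176) (Nat.add (Nat.mul 2 (msum X mML)) d)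

/-- radius of the multi-affine approximation -/
noncomputable def rad (X A : ℕ) : ℕ := Nat.add (Nat.mul 2 (Nat.add (Nat.shiftRight X 26600) (msum A mOT))) (msum A mSQ)

theorem ent_s {b1 b2 b3 b4 b5 : Bool} {M n X d b : ℕ} (hv : vOk b1 b2 b3 b4 b5 M n = true) (hX : Bd X)
    (hd : d ≤ 73786976294838206464) (hb : b = bas X d) :
    Nat.add (Nat.mul 4 (msum X M)) b ≤ 2 * (147573952589676412928 + n * 72057594037927936) ∧
    ((Nat.add (Nat.mul 4 (msum X M)) b : ℕ) : ℝ) - ((147573952589676412928 + n * 72057594037927936 : ℕ) : ℝ)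
      = NV X (sg b1) (sg b2) (sg b3) (sg b4) (sg b5) - (d : ℝ) := by
  have h1 := msum_le hX (vOk_mask hv)
  have h2 := msum_le hX mML_m
  have h3 := msum_le hX mSQ_m
  have h4 : b + (2 * msum X mML + d) = msum X mSQ + 148420629319622066176 := by
    rw [hb]; unfold bas; simp only [Nat.add_eq, Nat.mul_eq, Nat.sub_eq]; omega
  refine ⟨by simp only [Nat.add_eq, Nat.mul_eq]; omega, ?_⟩
  have h5 : (b : ℝ) + (2 * (msum X mML : ℝ) + d) = (msum X mSQ : ℝ) + 148420629319622066176 := by exact_mod_cast h4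
  rw [NV_vtx hv hX]
  simp only [Nat.add_eq, Nat.mul_eq]
  push_cast
  linarith

def cM : ℕ := 0x100000000000000000000000000000000000000000000000000000000000000000000000000000000000000000000000000000000000000000000000000000000000000000000000000000000000000000000000000000000000000000000000000000000000000000000000000000000000000000000000000000000000000000000000000000000000
def cMM : ℕ := 0x10000000000000000000000000000000000000000000000000000000000000000000000000000000000000000000000000000000000000000000000000000000000000000000000000000000000000000000000000000000000000000000000000000000000000000000000000000000000000000000000000000000000000000000000000000000000000000000000000000000000000000000000000000000000000000000000000000000000000000000000000000000000000000000000000000000000000000000000000000000000000000000000000000000000000000000000000000000000000000000000000000000000000000000000000000000000000000000000000000000000000000000000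
def cHH : ℕ := 0x80000000000000000000000000000000000000000000000000000000000000000000000000000000000000000000000000000000000000000000000000000000000000000000000000000000000000000000000000000000000000000000000000000000000000000000000000000000000000000000000000000000000000000000000000000000000

noncomputable def vtx (m C X11 X21 X22 X31 X32 X33 X41 X42 X43 X44 X51 X52 X53 X54 X55 b11 b21 b22 b31 b32 b33 b41 b42 b43 b44 b51 b52 b53 b54 b55 : ℕ) : Bool :=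
  gb5 cM cMM cHH C (Nat.add (Nat.mul 4 (msum X11 m)) b11) (Nat.add (Nat.mul 4 (msum X21 m)) b21) (Nat.add (Nat.mul 4 (msum X22 m)) b22) (Nat.add (Nat.mul 4 (msum X31 m)) b31) (Nat.add (Nat.mul 4 (msum X32 m)) b32) (Nat.add (Nat.mul 4 (msum X33 m)) b33) (Nat.add (Nat.mul 4 (msum X41 m)) b41) (Nat.add (Nat.mul 4 (msum X42 m)) b42) (Nat.add (Nat.mul 4 (msum X43 m)) b43) (Nat.add (Nat.mul 4 (msum X44 m)) b44) (Nat.add (Nat.mul 4 (msum X51 m)) b51) (Nat.add (Nat.mul 4 (msum X52 m)) b52) (Nat.add (Nat.mul 4 (msum X53 m)) b53) (Nat.add (Nat.mul 4 (msum X54 m)) b54) (Nat.add (Nat.mul 4 (msum X55 m)) b55)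

/-- the multi-affine matrix function -/
noncomputable def GV (X11 X21 X22 X31 X32 X33 X41 X42 X43 X44 X51 X52 X53 X54 X55 d1 d2 d3 d4 d5 : ℕ) (x1 x2 x3 x4 x5 e1 e2 e3 e4 e5 : ℝ) : ℝ :=
  q5 (NV X11 e1 e2 e3 e4 e5 - d1) (NV X21 e1 e2 e3 e4 e5) (NV X22 e1 e2 e3 e4 e5 - d2) (NV X31 e1 e2 e3 e4 e5) (NV X32 e1 e2 e3 e4 e5) (NV X33 e1 e2 e3 e4 e5 - d3) (NV X41 e1 e2 e3 e4 e5) (NV X42 e1 e2 e3 e4 e5) (NV X43 e1 e2 e3 e4 e5) (NV X44 e1 e2 e3 e4 e5 - d4) (NV X51 e1 e2 e3 e4 e5) (NV X52 e1 e2 e3 e4 e5) (NV X53 e1 e2 e3 e4 e5) (NV X54 e1 e2 e3 e4 e5) (NV X55 e1 e2 e3 e4 e5 - d5) x1 x2 x3 x4 x5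

structure Bas (X11 X21 X22 X31 X32 X33 X41 X42 X43 X44 X51 X52 X53 X54 X55 b11 b21 b22 b31 b32 b33 b41 b42 b43 b44 b51 b52 b53 b54 b55 d1 d2 d3 d4 d5 : ℕ) : Prop where
  h11 : Bd X11
  h21 : Bd X21
  h22 : Bd X22
  h31 : Bd X31
  h32 : Bd X32
  h33 : Bd X33
  h41 : Bd X41
  h42 : Bd X42
  h43 : Bd X43
  h44 : Bd X44
  h51 : Bd X51
  h52 : Bd X52
  h53 : Bd X53
  h54 : Bd X54
  h55 : Bd X55
  g11 : b11 = bas X11 d1
  g21 : b21 = bas X21 0
  g22 : b22 = bas X22 d2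
  g31 : b31 = bas X31 0
  g32 : b32 = bas X32 0
  g33 : b33 = bas X33 d3
  g41 : b41 = bas X41 0
  g42 : b42 = bas X42 0
  g43 : b43 = bas X43 0
  g44 : b44 = bas X44 d4
  g51 : b51 = bas X51 0
  g52 : b52 = bas X52 0
  g53 : b53 = bas X53 0
  g54 : b54 = bas X54 0
  g55 : b55 = bas X55 d5
  k1 : d1 ≤ 73786976294838206464
  k2 : d2 ≤ 73786976294838206464
  k3 : d3 ≤ 73786976294838206464
  k4 : d4 ≤ 73786976294838206464
  k5 : d5 ≤ 73786976294838206464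

theorem vtx_s {c1 c2 c3 c4 c5 : Bool} {m n C X11 X21 X22 X31 X32 X33 X41 X42 X43 X44 X51 X52 X53 X54 X55 b11 b21 b22 b31 b32 b33 b41 b42 b43 b44 b51 b52 b53 b54 b55 d1 d2 d3 d4 d5 : ℕ} (hv : vOk c1 c2 c3 c4 c5 m n = true)
    (hn : n ≤ 32) (hC : C + (147573952589676412928 + n * 72057594037927936) = cM) (h : Bas X11 X21 X22 X31 X32 X33 X41 X42 X43 X44 X51 X52 X53 X54 X55 b11 b21 b22 b31 b32 b33 b41 b42 b43 b44 b51 b52 b53 b54 b55 d1 d2 d3 d4 d5)
    (H : vtx m C X11 X21 X22 X31 X32 X33 X41 X42 X43 X44 X51 X52 X53 X54 X55 b11 b21 b22 b31 b32 b33 b41 b42 b43 b44 b51 b52 b53 b54 b55 = true) (x1 x2 x3 x4 x5 : ℝ) :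
    0 ≤ GV X11 X21 X22 X31 X32 X33 X41 X42 X43 X44 X51 X52 X53 X54 X55 d1 d2 d3 d4 d5 x1 x2 x3 x4 x5 (sg c1) (sg c2) (sg c3) (sg c4) (sg c5) := by
  have e11 := ent_s hv h.h11 h.k1 h.g11
  have e21 := ent_s hv h.h21 (Nat.zero_le _) h.g21
  have e22 := ent_s hv h.h22 h.k2 h.g22
  have e31 := ent_s hv h.h31 (Nat.zero_le _) h.g31
  have e32 := ent_s hv h.h32 (Nat.zero_le _) h.g32
  have e33 := ent_s hv h.h33 h.k3 h.g33
  have e41 := ent_s hv h.h41 (Nat.zero_le _) h.g41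
  have e42 := ent_s hv h.h42 (Nat.zero_le _) h.g42
  have e43 := ent_s hv h.h43 (Nat.zero_le _) h.g43
  have e44 := ent_s hv h.h44 h.k4 h.g44
  have e51 := ent_s hv h.h51 (Nat.zero_le _) h.g51
  have e52 := ent_s hv h.h52 (Nat.zero_le _) h.g52
  have e53 := ent_s hv h.h53 (Nat.zero_le _) h.g53
  have e54 := ent_s hv h.h54 (Nat.zero_le _) h.g54
  have e55 := ent_s hv h.h55 h.k5 h.g55
  have hT : 2 * (2 * (2 * (2 * (((147573952589676412928 + n * 72057594037927936 : ℕ) : ℤ)) ^ 2) ^ 2) ^ 2) ^ 2 + (cHH : ℤ) ≤ (cM : ℤ) := by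
    have h1 : (((147573952589676412928 + n * 72057594037927936 : ℕ) : ℤ)) ≤ 149879795598890106880 := by push_cast; omega
    have h0 : (0 : ℤ) ≤ (((147573952589676412928 + n * 72057594037927936 : ℕ) : ℤ)) := Int.natCast_nonneg _
    have h2 : 2 * (2 * (2 * (2 * (149879795598890106880 : ℤ) ^ 2) ^ 2) ^ 2) ^ 2 + (cHH : ℤ) ≤ (cM : ℤ) := by decide +kernel
    refine le_trans ?_ h2
    gcongr
  have h1 := gb5_s (M := cM) (MM := cMM) (H := cHH) (by decide +kernel) hC (by decide +kernel) hT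
    e11.1 e21.1 e22.1 e31.1 e32.1 e33.1 e41.1 e42.1 e43.1 e44.1 e51.1 e52.1 e53.1 e54.1 e55.1 H x1 x2 x3 x4 x5
  rw [e11.2, e21.2, e22.2, e31.2, e32.2, e33.2, e41.2, e42.2, e43.2, e44.2, e51.2, e52.2, e53.2, e54.2, e55.2] at h1
  unfold GV
  simpa only [Nat.cast_zero, sub_zero] using h1

theorem GV_aff1 (X11 X21 X22 X31 X32 X33 X41 X42 X43 X44 X51 X52 X53 X54 X55 d1 d2 d3 d4 d5 : ℕ) (x1 x2 x3 x4 x5 e1 e2 e3 e4 e5 : ℝ) :
    GV X11 X21 X22 X31 X32 X33 X41 X42 X43 X44 X51 X52 X53 X54 X55 d1 d2 d3 d4 d5 x1 x2 x3 x4 x5 e1 e2 e3 e4 e5 =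
      (1 + e1) / 2 * GV X11 X21 X22 X31 X32 X33 X41 X42 X43 X44 X51 X52 X53 X54 X55 d1 d2 d3 d4 d5 x1 x2 x3 x4 x5 1 e2 e3 e4 e5 + (1 - e1) / 2 * GV X11 X21 X22 X31 X32 X33 X41 X42 X43 X44 X51 X52 X53 X54 X55 d1 d2 d3 d4 d5 x1 x2 x3 x4 x5 (-1) e2 e3 e4 e5 := by
  unfold GV q5
  rw [NV_aff1 X11 e1 e2 e3 e4 e5, NV_aff1 X21 e1 e2 e3 e4 e5, NV_aff1 X22 e1 e2 e3 e4 e5, NV_aff1 X31 e1 e2 e3 e4 e5, NV_aff1 X32 e1 e2 e3 e4 e5, NV_aff1 X33 e1 e2 e3 e4 e5, NV_aff1 X41 e1 e2 e3 e4 e5, NV_aff1 X42 e1 e2 e3 e4 e5, NV_aff1 X43 e1 e2 e3 e4 e5, NV_aff1 X44 e1 e2 e3 e4 e5, NV_aff1 X51 e1 e2 e3 e4 e5, NV_aff1 X52 e1 e2 e3 e4 e5, NV_aff1 X53 e1 e2 e3 e4 e5, NV_aff1 X54 e1 e2 e3 e4 e5, NV_aff1 X55 e1 e2 e3 e4 e5]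
  ring

theorem GV_aff2 (X11 X21 X22 X31 X32 X33 X41 X42 X43 X44 X51 X52 X53 X54 X55 d1 d2 d3 d4 d5 : ℕ) (x1 x2 x3 x4 x5 e1 e2 e3 e4 e5 : ℝ) :
    GV X11 X21 X22 X31 X32 X33 X41 X42 X43 X44 X51 X52 X53 X54 X55 d1 d2 d3 d4 d5 x1 x2 x3 x4 x5 e1 e2 e3 e4 e5 =
      (1 + e2) / 2 * GV X11 X21 X22 X31 X32 X33 X41 X42 X43 X44 X51 X52 X53 X54 X55 d1 d2 d3 d4 d5 x1 x2 x3 x4 x5 e1 1 e3 e4 e5 + (1 - e2) / 2 * GV X11 X21 X22 X31 X32 X33 X41 X42 X43 X44 X51 X52 X53 X54 X55 d1 d2 d3 d4 d5 x1 x2 x3 x4 x5 e1 (-1) e3 e4 e5 := by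
  unfold GV q5
  rw [NV_aff2 X11 e1 e2 e3 e4 e5, NV_aff2 X21 e1 e2 e3 e4 e5, NV_aff2 X22 e1 e2 e3 e4 e5, NV_aff2 X31 e1 e2 e3 e4 e5, NV_aff2 X32 e1 e2 e3 e4 e5, NV_aff2 X33 e1 e2 e3 e4 e5, NV_aff2 X41 e1 e2 e3 e4 e5, NV_aff2 X42 e1 e2 e3 e4 e5, NV_aff2 X43 e1 e2 e3 e4 e5, NV_aff2 X44 e1 e2 e3 e4 e5, NV_aff2 X51 e1 e2 e3 e4 e5, NV_aff2 X52 e1 e2 e3 e4 e5, NV_aff2 X53 e1 e2 e3 e4 e5, NV_aff2 X54 e1 e2 e3 e4 e5, NV_aff2 X55 e1 e2 e3 e4 e5]
  ring

theorem GV_aff3 (X11 X21 X22 X31 X32 X33 X41 X42 X43 X44 X51 X52 X53 X54 X55 d1 d2 d3 d4 d5 : ℕ) (x1 x2 x3 x4 x5 e1 e2 e3 e4 e5 : ℝ) :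
    GV X11 X21 X22 X31 X32 X33 X41 X42 X43 X44 X51 X52 X53 X54 X55 d1 d2 d3 d4 d5 x1 x2 x3 x4 x5 e1 e2 e3 e4 e5 =
      (1 + e3) / 2 * GV X11 X21 X22 X31 X32 X33 X41 X42 X43 X44 X51 X52 X53 X54 X55 d1 d2 d3 d4 d5 x1 x2 x3 x4 x5 e1 e2 1 e4 e5 + (1 - e3) / 2 * GV X11 X21 X22 X31 X32 X33 X41 X42 X43 X44 X51 X52 X53 X54 X55 d1 d2 d3 d4 d5 x1 x2 x3 x4 x5 e1 e2 (-1) e4 e5 := by
  unfold GV q5
  rw [NV_aff3 X11 e1 e2 e3 e4 e5, NV_aff3 X21 e1 e2 e3 e4 e5, NV_aff3 X22 e1 e2 e3 e4 e5, NV_aff3 X31 e1 e2 e3 e4 e5, NV_aff3 X32 e1 e2 e3 e4 e5, NV_aff3 X33 e1 e2 e3 e4 e5, NV_aff3 X41 e1 e2 e3 e4 e5, NV_aff3 X42 e1 e2 e3 e4 e5, NV_aff3 X43 e1 e2 e3 e4 e5, NV_aff3 X44 e1 e2 e3 e4 e5, NV_aff3 X51 e1 e2 e3 e4 e5, NV_aff3 X52 e1 e2 e3 e4 e5, NV_aff3 X53 e1 e2 e3 e4 e5, NV_aff3 X54 e1 e2 e3 e4 e5, NV_aff3 X55 e1 e2 e3 e4 e5]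
  ring

theorem GV_aff4 (X11 X21 X22 X31 X32 X33 X41 X42 X43 X44 X51 X52 X53 X54 X55 d1 d2 d3 d4 d5 : ℕ) (x1 x2 x3 x4 x5 e1 e2 e3 e4 e5 : ℝ) :
    GV X11 X21 X22 X31 X32 X33 X41 X42 X43 X44 X51 X52 X53 X54 X55 d1 d2 d3 d4 d5 x1 x2 x3 x4 x5 e1 e2 e3 e4 e5 =
      (1 + e4) / 2 * GV X11 X21 X22 X31 X32 X33 X41 X42 X43 X44 X51 X52 X53 X54 X55 d1 d2 d3 d4 d5 x1 x2 x3 x4 x5 e1 e2 e3 1 e5 + (1 - e4) / 2 * GV X11 X21 X22 X31 X32 X33 X41 X42 X43 X44 X51 X52 X53 X54 X55 d1 d2 d3 d4 d5 x1 x2 x3 x4 x5 e1 e2 e3 (-1) e5 := by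
  unfold GV q5
  rw [NV_aff4 X11 e1 e2 e3 e4 e5, NV_aff4 X21 e1 e2 e3 e4 e5, NV_aff4 X22 e1 e2 e3 e4 e5, NV_aff4 X31 e1 e2 e3 e4 e5, NV_aff4 X32 e1 e2 e3 e4 e5, NV_aff4 X33 e1 e2 e3 e4 e5, NV_aff4 X41 e1 e2 e3 e4 e5, NV_aff4 X42 e1 e2 e3 e4 e5, NV_aff4 X43 e1 e2 e3 e4 e5, NV_aff4 X44 e1 e2 e3 e4 e5, NV_aff4 X51 e1 e2 e3 e4 e5, NV_aff4 X52 e1 e2 e3 e4 e5, NV_aff4 X53 e1 e2 e3 e4 e5, NV_aff4 X54 e1 e2 e3 e4 e5, NV_aff4 X55 e1 e2 e3 e4 e5]
  ring

theorem GV_aff5 (X11 X21 X22 X31 X32 X33 X41 X42 X43 X44 X51 X52 X53 X54 X55 d1 d2 d3 d4 d5 : ℕ) (x1 x2 x3 x4 x5 e1 e2 e3 e4 e5 : ℝ) :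
    GV X11 X21 X22 X31 X32 X33 X41 X42 X43 X44 X51 X52 X53 X54 X55 d1 d2 d3 d4 d5 x1 x2 x3 x4 x5 e1 e2 e3 e4 e5 =
      (1 + e5) / 2 * GV X11 X21 X22 X31 X32 X33 X41 X42 X43 X44 X51 X52 X53 X54 X55 d1 d2 d3 d4 d5 x1 x2 x3 x4 x5 e1 e2 e3 e4 1 + (1 - e5) / 2 * GV X11 X21 X22 X31 X32 X33 X41 X42 X43 X44 X51 X52 X53 X54 X55 d1 d2 d3 d4 d5 x1 x2 x3 x4 x5 e1 e2 e3 e4 (-1) := by
  unfold GV q5
  rw [NV_aff5 X11 e1 e2 e3 e4 e5, NV_aff5 X21 e1 e2 e3 e4 e5, NV_aff5 X22 e1 e2 e3 e4 e5, NV_aff5 X31 e1 e2 e3 e4 e5, NV_aff5 X32 e1 e2 e3 e4 e5, NV_aff5 X33 e1 e2 e3 e4 e5, NV_aff5 X41 e1 e2 e3 e4 e5, NV_aff5 X42 e1 e2 e3 e4 e5, NV_aff5 X43 e1 e2 e3 e4 e5, NV_aff5 X44 e1 e2 e3 e4 e5, NV_aff5 X51 e1 e2 e3 e4 e5, NV_aff5 X52 e1 e2 e3 e4 e5, NV_aff5 X53 e1 e2 e3 e4 e5, NV_aff5 X54 e1 e2 e3 e4 e5, NV_aff5 X55 e1 e2 e3 e4 e5]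
  ring

theorem aff_nn {e a b : ℝ} (he : |e| ≤ 1) (ha : 0 ≤ a) (hb : 0 ≤ b) : 0 ≤ (1 + e) / 2 * a + (1 - e) / 2 * b := by
  obtain ⟨h1, h2⟩ := abs_le.1 he
  have : 0 ≤ (1 + e) / 2 := by linarith
  have : 0 ≤ (1 - e) / 2 := by linarith
  positivity

theorem cube_nn {f : ℝ → ℝ → ℝ → ℝ → ℝ → ℝ}
    (a1 : ∀ e1 e2 e3 e4 e5, f e1 e2 e3 e4 e5 = (1 + e1) / 2 * f 1 e2 e3 e4 e5 + (1 - e1) / 2 * f (-1) e2 e3 e4 e5)
    (a2 : ∀ e1 e2 e3 e4 e5, f e1 e2 e3 e4 e5 = (1 + e2) / 2 * f e1 1 e3 e4 e5 + (1 - e2) / 2 * f e1 (-1) e3 e4 e5)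
    (a3 : ∀ e1 e2 e3 e4 e5, f e1 e2 e3 e4 e5 = (1 + e3) / 2 * f e1 e2 1 e4 e5 + (1 - e3) / 2 * f e1 e2 (-1) e4 e5)
    (a4 : ∀ e1 e2 e3 e4 e5, f e1 e2 e3 e4 e5 = (1 + e4) / 2 * f e1 e2 e3 1 e5 + (1 - e4) / 2 * f e1 e2 e3 (-1) e5)
    (a5 : ∀ e1 e2 e3 e4 e5, f e1 e2 e3 e4 e5 = (1 + e5) / 2 * f e1 e2 e3 e4 1 + (1 - e5) / 2 * f e1 e2 e3 e4 (-1))
    (hv : ∀ c1 c2 c3 c4 c5 : Bool, 0 ≤ f (sg c1) (sg c2) (sg c3) (sg c4) (sg c5))
    {e1 e2 e3 e4 e5 : ℝ} (he : Ev e1 e2 e3 e4 e5) : 0 ≤ f e1 e2 e3 e4 e5 := by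
  have sf : sg false = 1 := by simp [sg]
  have st : sg true = -1 := by simp [sg]
  have s5 : ∀ c1 c2 c3 c4 : Bool, 0 ≤ f (sg c1) (sg c2) (sg c3) (sg c4) e5 := fun c1 c2 c3 c4 => by
    rw [a5]; exact aff_nn he.h5 (sf ▸ hv c1 c2 c3 c4 false) (st ▸ hv c1 c2 c3 c4 true)
  have s4 : ∀ c1 c2 c3 : Bool, 0 ≤ f (sg c1) (sg c2) (sg c3) e4 e5 := fun c1 c2 c3 => by
    rw [a4]; exact aff_nn he.h4 (sf ▸ s5 c1 c2 c3 false) (st ▸ s5 c1 c2 c3 true)
  have s3 : ∀ c1 c2 : Bool, 0 ≤ f (sg c1) (sg c2) e3 e4 e5 := fun c1 c2 => by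
    rw [a3]; exact aff_nn he.h3 (sf ▸ s4 c1 c2 false) (st ▸ s4 c1 c2 true)
  have s2 : ∀ c1 : Bool, 0 ≤ f (sg c1) e2 e3 e4 e5 := fun c1 => by
    rw [a2]; exact aff_nn he.h2 (sf ▸ s3 c1 false) (st ▸ s3 c1 true)
  rw [a1]; exact aff_nn he.h1 (sf ▸ s2 false) (st ▸ s2 true)

def vc0 : ℕ := 0xffffffffffffffffffffffffffffffffffffffffffffffffffffffffffffffffffffffffffffffffffffffffffffffffffffffffffffffffffffffffffffffffffffffffffffffffffffffffffffffffffffffffffffffffffffffffffffffffffffffffffffffffffffffffffffffffffffffffffffffffffffffffffffffffff7e600000000000000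
def vc1 : ℕ := 0xffffffffffffffffffffffffffffffffffffffffffffffffffffffffffffffffffffffffffffffffffffffffffffffffffffffffffffffffffffffffffffffffffffffffffffffffffffffffffffffffffffffffffffffffffffffffffffffffffffffffffffffffffffffffffffffffffffffffffffffffffffffffffffffffff7f100000000000000
def vc2 : ℕ := 0xffffffffffffffffffffffffffffffffffffffffffffffffffffffffffffffffffffffffffffffffffffffffffffffffffffffffffffffffffffffffffffffffffffffffffffffffffffffffffffffffffffffffffffffffffffffffffffffffffffffffffffffffffffffffffffffffffffffffffffffffffffffffffffffffff7f100000000000000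
def vc3 : ℕ := 0xffffffffffffffffffffffffffffffffffffffffffffffffffffffffffffffffffffffffffffffffffffffffffffffffffffffffffffffffffffffffffffffffffffffffffffffffffffffffffffffffffffffffffffffffffffffffffffffffffffffffffffffffffffffffffffffffffffffffffffffffffffffffffffffffff7f400000000000000
def vc4 : ℕ := 0xffffffffffffffffffffffffffffffffffffffffffffffffffffffffffffffffffffffffffffffffffffffffffffffffffffffffffffffffffffffffffffffffffffffffffffffffffffffffffffffffffffffffffffffffffffffffffffffffffffffffffffffffffffffffffffffffffffffffffffffffffffffffffffffffff7f100000000000000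
def vc5 : ℕ := 0xffffffffffffffffffffffffffffffffffffffffffffffffffffffffffffffffffffffffffffffffffffffffffffffffffffffffffffffffffffffffffffffffffffffffffffffffffffffffffffffffffffffffffffffffffffffffffffffffffffffffffffffffffffffffffffffffffffffffffffffffffffffffffffffffff7f400000000000000
def vc6 : ℕ := 0xffffffffffffffffffffffffffffffffffffffffffffffffffffffffffffffffffffffffffffffffffffffffffffffffffffffffffffffffffffffffffffffffffffffffffffffffffffffffffffffffffffffffffffffffffffffffffffffffffffffffffffffffffffffffffffffffffffffffffffffffffffffffffffffffff7f400000000000000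
def vc7 : ℕ := 0xffffffffffffffffffffffffffffffffffffffffffffffffffffffffffffffffffffffffffffffffffffffffffffffffffffffffffffffffffffffffffffffffffffffffffffffffffffffffffffffffffffffffffffffffffffffffffffffffffffffffffffffffffffffffffffffffffffffffffffffffffffffffffffffffff7f300000000000000
def vc8 : ℕ := 0xffffffffffffffffffffffffffffffffffffffffffffffffffffffffffffffffffffffffffffffffffffffffffffffffffffffffffffffffffffffffffffffffffffffffffffffffffffffffffffffffffffffffffffffffffffffffffffffffffffffffffffffffffffffffffffffffffffffffffffffffffffffffffffffffff7f100000000000000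
def vc9 : ℕ := 0xffffffffffffffffffffffffffffffffffffffffffffffffffffffffffffffffffffffffffffffffffffffffffffffffffffffffffffffffffffffffffffffffffffffffffffffffffffffffffffffffffffffffffffffffffffffffffffffffffffffffffffffffffffffffffffffffffffffffffffffffffffffffffffffffff7f400000000000000
def vc10 : ℕ := 0xffffffffffffffffffffffffffffffffffffffffffffffffffffffffffffffffffffffffffffffffffffffffffffffffffffffffffffffffffffffffffffffffffffffffffffffffffffffffffffffffffffffffffffffffffffffffffffffffffffffffffffffffffffffffffffffffffffffffffffffffffffffffffffffffff7f400000000000000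
def vc11 : ℕ := 0xffffffffffffffffffffffffffffffffffffffffffffffffffffffffffffffffffffffffffffffffffffffffffffffffffffffffffffffffffffffffffffffffffffffffffffffffffffffffffffffffffffffffffffffffffffffffffffffffffffffffffffffffffffffffffffffffffffffffffffffffffffffffffffffffff7f300000000000000
def vc12 : ℕ := 0xffffffffffffffffffffffffffffffffffffffffffffffffffffffffffffffffffffffffffffffffffffffffffffffffffffffffffffffffffffffffffffffffffffffffffffffffffffffffffffffffffffffffffffffffffffffffffffffffffffffffffffffffffffffffffffffffffffffffffffffffffffffffffffffffff7f400000000000000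
def vc13 : ℕ := 0xffffffffffffffffffffffffffffffffffffffffffffffffffffffffffffffffffffffffffffffffffffffffffffffffffffffffffffffffffffffffffffffffffffffffffffffffffffffffffffffffffffffffffffffffffffffffffffffffffffffffffffffffffffffffffffffffffffffffffffffffffffffffffffffffff7f300000000000000
def vc14 : ℕ := 0xffffffffffffffffffffffffffffffffffffffffffffffffffffffffffffffffffffffffffffffffffffffffffffffffffffffffffffffffffffffffffffffffffffffffffffffffffffffffffffffffffffffffffffffffffffffffffffffffffffffffffffffffffffffffffffffffffffffffffffffffffffffffffffffffff7f300000000000000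
def vc15 : ℕ := 0xffffffffffffffffffffffffffffffffffffffffffffffffffffffffffffffffffffffffffffffffffffffffffffffffffffffffffffffffffffffffffffffffffffffffffffffffffffffffffffffffffffffffffffffffffffffffffffffffffffffffffffffffffffffffffffffffffffffffffffffffffffffffffffffffff7f200000000000000
def vc16 : ℕ := 0xffffffffffffffffffffffffffffffffffffffffffffffffffffffffffffffffffffffffffffffffffffffffffffffffffffffffffffffffffffffffffffffffffffffffffffffffffffffffffffffffffffffffffffffffffffffffffffffffffffffffffffffffffffffffffffffffffffffffffffffffffffffffffffffffff7f100000000000000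
def vc17 : ℕ := 0xffffffffffffffffffffffffffffffffffffffffffffffffffffffffffffffffffffffffffffffffffffffffffffffffffffffffffffffffffffffffffffffffffffffffffffffffffffffffffffffffffffffffffffffffffffffffffffffffffffffffffffffffffffffffffffffffffffffffffffffffffffffffffffffffff7f400000000000000
def vc18 : ℕ := 0xffffffffffffffffffffffffffffffffffffffffffffffffffffffffffffffffffffffffffffffffffffffffffffffffffffffffffffffffffffffffffffffffffffffffffffffffffffffffffffffffffffffffffffffffffffffffffffffffffffffffffffffffffffffffffffffffffffffffffffffffffffffffffffffffff7f400000000000000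
def vc19 : ℕ := 0xffffffffffffffffffffffffffffffffffffffffffffffffffffffffffffffffffffffffffffffffffffffffffffffffffffffffffffffffffffffffffffffffffffffffffffffffffffffffffffffffffffffffffffffffffffffffffffffffffffffffffffffffffffffffffffffffffffffffffffffffffffffffffffffffff7f300000000000000
def vc20 : ℕ := 0xffffffffffffffffffffffffffffffffffffffffffffffffffffffffffffffffffffffffffffffffffffffffffffffffffffffffffffffffffffffffffffffffffffffffffffffffffffffffffffffffffffffffffffffffffffffffffffffffffffffffffffffffffffffffffffffffffffffffffffffffffffffffffffffffff7f400000000000000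
def vc21 : ℕ := 0xffffffffffffffffffffffffffffffffffffffffffffffffffffffffffffffffffffffffffffffffffffffffffffffffffffffffffffffffffffffffffffffffffffffffffffffffffffffffffffffffffffffffffffffffffffffffffffffffffffffffffffffffffffffffffffffffffffffffffffffffffffffffffffffffff7f300000000000000
def vc22 : ℕ := 0xffffffffffffffffffffffffffffffffffffffffffffffffffffffffffffffffffffffffffffffffffffffffffffffffffffffffffffffffffffffffffffffffffffffffffffffffffffffffffffffffffffffffffffffffffffffffffffffffffffffffffffffffffffffffffffffffffffffffffffffffffffffffffffffffff7f300000000000000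
def vc23 : ℕ := 0xffffffffffffffffffffffffffffffffffffffffffffffffffffffffffffffffffffffffffffffffffffffffffffffffffffffffffffffffffffffffffffffffffffffffffffffffffffffffffffffffffffffffffffffffffffffffffffffffffffffffffffffffffffffffffffffffffffffffffffffffffffffffffffffffff7f200000000000000
def vc24 : ℕ := 0xffffffffffffffffffffffffffffffffffffffffffffffffffffffffffffffffffffffffffffffffffffffffffffffffffffffffffffffffffffffffffffffffffffffffffffffffffffffffffffffffffffffffffffffffffffffffffffffffffffffffffffffffffffffffffffffffffffffffffffffffffffffffffffffffff7f400000000000000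
def vc25 : ℕ := 0xffffffffffffffffffffffffffffffffffffffffffffffffffffffffffffffffffffffffffffffffffffffffffffffffffffffffffffffffffffffffffffffffffffffffffffffffffffffffffffffffffffffffffffffffffffffffffffffffffffffffffffffffffffffffffffffffffffffffffffffffffffffffffffffffff7f300000000000000
def vc26 : ℕ := 0xffffffffffffffffffffffffffffffffffffffffffffffffffffffffffffffffffffffffffffffffffffffffffffffffffffffffffffffffffffffffffffffffffffffffffffffffffffffffffffffffffffffffffffffffffffffffffffffffffffffffffffffffffffffffffffffffffffffffffffffffffffffffffffffffff7f300000000000000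
def vc27 : ℕ := 0xffffffffffffffffffffffffffffffffffffffffffffffffffffffffffffffffffffffffffffffffffffffffffffffffffffffffffffffffffffffffffffffffffffffffffffffffffffffffffffffffffffffffffffffffffffffffffffffffffffffffffffffffffffffffffffffffffffffffffffffffffffffffffffffffff7f200000000000000
def vc28 : ℕ := 0xffffffffffffffffffffffffffffffffffffffffffffffffffffffffffffffffffffffffffffffffffffffffffffffffffffffffffffffffffffffffffffffffffffffffffffffffffffffffffffffffffffffffffffffffffffffffffffffffffffffffffffffffffffffffffffffffffffffffffffffffffffffffffffffffff7f300000000000000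
def vc29 : ℕ := 0xffffffffffffffffffffffffffffffffffffffffffffffffffffffffffffffffffffffffffffffffffffffffffffffffffffffffffffffffffffffffffffffffffffffffffffffffffffffffffffffffffffffffffffffffffffffffffffffffffffffffffffffffffffffffffffffffffffffffffffffffffffffffffffffffff7f200000000000000
def vc30 : ℕ := 0xffffffffffffffffffffffffffffffffffffffffffffffffffffffffffffffffffffffffffffffffffffffffffffffffffffffffffffffffffffffffffffffffffffffffffffffffffffffffffffffffffffffffffffffffffffffffffffffffffffffffffffffffffffffffffffffffffffffffffffffffffffffffffffffffff7f200000000000000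
def vc31 : ℕ := 0xffffffffffffffffffffffffffffffffffffffffffffffffffffffffffffffffffffffffffffffffffffffffffffffffffffffffffffffffffffffffffffffffffffffffffffffffffffffffffffffffffffffffffffffffffffffffffffffffffffffffffffffffffffffffffffffffffffffffffffffffffffffffffffffffff7f500000000000000

noncomputable def allV (X11 X21 X22 X31 X32 X33 X41 X42 X43 X44 X51 X52 X53 X54 X55 b11 b21 b22 b31 b32 b33 b41 b42 b43 b44 b51 b52 b53 b54 b55 : ℕ) : Bool :=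
  iB (vtx vm0 vc0 X11 X21 X22 X31 X32 X33 X41 X42 X43 X44 X51 X52 X53 X54 X55 b11 b21 b22 b31 b32 b33 b41 b42 b43 b44 b51 b52 b53 b54 b55) false (
  iB (vtx vm1 vc1 X11 X21 X22 X31 X32 X33 X41 X42 X43 X44 X51 X52 X53 X54 X55 b11 b21 b22 b31 b32 b33 b41 b42 b43 b44 b51 b52 b53 b54 b55) false (
  iB (vtx vm2 vc2 X11 X21 X22 X31 X32 X33 X41 X42 X43 X44 X51 X52 X53 X54 X55 b11 b21 b22 b31 b32 b33 b41 b42 b43 b44 b51 b52 b53 b54 b55) false (
  iB (vtx vm3 vc3 X11 X21 X22 X31 X32 X33 X41 X42 X43 X44 X51 X52 X53 X54 X55 b11 b21 b22 b31 b32 b33 b41 b42 b43 b44 b51 b52 b53 b54 b55) false (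
  iB (vtx vm4 vc4 X11 X21 X22 X31 X32 X33 X41 X42 X43 X44 X51 X52 X53 X54 X55 b11 b21 b22 b31 b32 b33 b41 b42 b43 b44 b51 b52 b53 b54 b55) false (
  iB (vtx vm5 vc5 X11 X21 X22 X31 X32 X33 X41 X42 X43 X44 X51 X52 X53 X54 X55 b11 b21 b22 b31 b32 b33 b41 b42 b43 b44 b51 b52 b53 b54 b55) false (
  iB (vtx vm6 vc6 X11 X21 X22 X31 X32 X33 X41 X42 X43 X44 X51 X52 X53 X54 X55 b11 b21 b22 b31 b32 b33 b41 b42 b43 b44 b51 b52 b53 b54 b55) false (
  iB (vtx vm7 vc7 X11 X21 X22 X31 X32 X33 X41 X42 X43 X44 X51 X52 X53 X54 X55 b11 b21 b22 b31 b32 b33 b41 b42 b43 b44 b51 b52 b53 b54 b55) false (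
  iB (vtx vm8 vc8 X11 X21 X22 X31 X32 X33 X41 X42 X43 X44 X51 X52 X53 X54 X55 b11 b21 b22 b31 b32 b33 b41 b42 b43 b44 b51 b52 b53 b54 b55) false (
  iB (vtx vm9 vc9 X11 X21 X22 X31 X32 X33 X41 X42 X43 X44 X51 X52 X53 X54 X55 b11 b21 b22 b31 b32 b33 b41 b42 b43 b44 b51 b52 b53 b54 b55) false (
  iB (vtx vm10 vc10 X11 X21 X22 X31 X32 X33 X41 X42 X43 X44 X51 X52 X53 X54 X55 b11 b21 b22 b31 b32 b33 b41 b42 b43 b44 b51 b52 b53 b54 b55) false (
  iB (vtx vm11 vc11 X11 X21 X22 X31 X32 X33 X41 X42 X43 X44 X51 X52 X53 X54 X55 b11 b21 b22 b31 b32 b33 b41 b42 b43 b44 b51 b52 b53 b54 b55) false (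
  iB (vtx vm12 vc12 X11 X21 X22 X31 X32 X33 X41 X42 X43 X44 X51 X52 X53 X54 X55 b11 b21 b22 b31 b32 b33 b41 b42 b43 b44 b51 b52 b53 b54 b55) false (
  iB (vtx vm13 vc13 X11 X21 X22 X31 X32 X33 X41 X42 X43 X44 X51 X52 X53 X54 X55 b11 b21 b22 b31 b32 b33 b41 b42 b43 b44 b51 b52 b53 b54 b55) false (
  iB (vtx vm14 vc14 X11 X21 X22 X31 X32 X33 X41 X42 X43 X44 X51 X52 X53 X54 X55 b11 b21 b22 b31 b32 b33 b41 b42 b43 b44 b51 b52 b53 b54 b55) false (
  iB (vtx vm15 vc15 X11 X21 X22 X31 X32 X33 X41 X42 X43 X44 X51 X52 X53 X54 X55 b11 b21 b22 b31 b32 b33 b41 b42 b43 b44 b51 b52 b53 b54 b55) false (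
  iB (vtx vm16 vc16 X11 X21 X22 X31 X32 X33 X41 X42 X43 X44 X51 X52 X53 X54 X55 b11 b21 b22 b31 b32 b33 b41 b42 b43 b44 b51 b52 b53 b54 b55) false (
  iB (vtx vm17 vc17 X11 X21 X22 X31 X32 X33 X41 X42 X43 X44 X51 X52 X53 X54 X55 b11 b21 b22 b31 b32 b33 b41 b42 b43 b44 b51 b52 b53 b54 b55) false (
  iB (vtx vm18 vc18 X11 X21 X22 X31 X32 X33 X41 X42 X43 X44 X51 X52 X53 X54 X55 b11 b21 b22 b31 b32 b33 b41 b42 b43 b44 b51 b52 b53 b54 b55) false (
  iB (vtx vm19 vc19 X11 X21 X22 X31 X32 X33 X41 X42 X43 X44 X51 X52 X53 X54 X55 b11 b21 b22 b31 b32 b33 b41 b42 b43 b44 b51 b52 b53 b54 b55) false (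
  iB (vtx vm20 vc20 X11 X21 X22 X31 X32 X33 X41 X42 X43 X44 X51 X52 X53 X54 X55 b11 b21 b22 b31 b32 b33 b41 b42 b43 b44 b51 b52 b53 b54 b55) false (
  iB (vtx vm21 vc21 X11 X21 X22 X31 X32 X33 X41 X42 X43 X44 X51 X52 X53 X54 X55 b11 b21 b22 b31 b32 b33 b41 b42 b43 b44 b51 b52 b53 b54 b55) false (
  iB (vtx vm22 vc22 X11 X21 X22 X31 X32 X33 X41 X42 X43 X44 X51 X52 X53 X54 X55 b11 b21 b22 b31 b32 b33 b41 b42 b43 b44 b51 b52 b53 b54 b55) false (
  iB (vtx vm23 vc23 X11 X21 X22 X31 X32 X33 X41 X42 X43 X44 X51 X52 X53 X54 X55 b11 b21 b22 b31 b32 b33 b41 b42 b43 b44 b51 b52 b53 b54 b55) false (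
  iB (vtx vm24 vc24 X11 X21 X22 X31 X32 X33 X41 X42 X43 X44 X51 X52 X53 X54 X55 b11 b21 b22 b31 b32 b33 b41 b42 b43 b44 b51 b52 b53 b54 b55) false (
  iB (vtx vm25 vc25 X11 X21 X22 X31 X32 X33 X41 X42 X43 X44 X51 X52 X53 X54 X55 b11 b21 b22 b31 b32 b33 b41 b42 b43 b44 b51 b52 b53 b54 b55) false (
  iB (vtx vm26 vc26 X11 X21 X22 X31 X32 X33 X41 X42 X43 X44 X51 X52 X53 X54 X55 b11 b21 b22 b31 b32 b33 b41 b42 b43 b44 b51 b52 b53 b54 b55) false (
  iB (vtx vm27 vc27 X11 X21 X22 X31 X32 X33 X41 X42 X43 X44 X51 X52 X53 X54 X55 b11 b21 b22 b31 b32 b33 b41 b42 b43 b44 b51 b52 b53 b54 b55) false (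
  iB (vtx vm28 vc28 X11 X21 X22 X31 X32 X33 X41 X42 X43 X44 X51 X52 X53 X54 X55 b11 b21 b22 b31 b32 b33 b41 b42 b43 b44 b51 b52 b53 b54 b55) false (
  iB (vtx vm29 vc29 X11 X21 X22 X31 X32 X33 X41 X42 X43 X44 X51 X52 X53 X54 X55 b11 b21 b22 b31 b32 b33 b41 b42 b43 b44 b51 b52 b53 b54 b55) false (
  iB (vtx vm30 vc30 X11 X21 X22 X31 X32 X33 X41 X42 X43 X44 X51 X52 X53 X54 X55 b11 b21 b22 b31 b32 b33 b41 b42 b43 b44 b51 b52 b53 b54 b55) false (
  vtx vm31 vc31 X11 X21 X22 X31 X32 X33 X41 X42 X43 X44 X51 X52 X53 X54 X55 b11 b21 b22 b31 b32 b33 b41 b42 b43 b44 b51 b52 b53 b54 b55)))))))))))))))))))))))))))))))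

theorem allV_s {X11 X21 X22 X31 X32 X33 X41 X42 X43 X44 X51 X52 X53 X54 X55 b11 b21 b22 b31 b32 b33 b41 b42 b43 b44 b51 b52 b53 b54 b55 d1 d2 d3 d4 d5 : ℕ} (h : Bas X11 X21 X22 X31 X32 X33 X41 X42 X43 X44 X51 X52 X53 X54 X55 b11 b21 b22 b31 b32 b33 b41 b42 b43 b44 b51 b52 b53 b54 b55 d1 d2 d3 d4 d5)
    (H : allV X11 X21 X22 X31 X32 X33 X41 X42 X43 X44 X51 X52 X53 X54 X55 b11 b21 b22 b31 b32 b33 b41 b42 b43 b44 b51 b52 b53 b54 b55 = true) (x1 x2 x3 x4 x5 : ℝ) (c1 c2 c3 c4 c5 : Bool) :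
    0 ≤ GV X11 X21 X22 X31 X32 X33 X41 X42 X43 X44 X51 X52 X53 X54 X55 d1 d2 d3 d4 d5 x1 x2 x3 x4 x5 (sg c1) (sg c2) (sg c3) (sg c4) (sg c5) := by
  unfold allV at H
  obtain ⟨H0, H⟩ := brc H
  obtain ⟨H1, H⟩ := brc H
  obtain ⟨H2, H⟩ := brc H
  obtain ⟨H3, H⟩ := brc H
  obtain ⟨H4, H⟩ := brc H
  obtain ⟨H5, H⟩ := brc H
  obtain ⟨H6, H⟩ := brc H
  obtain ⟨H7, H⟩ := brc H
  obtain ⟨H8, H⟩ := brc H
  obtain ⟨H9, H⟩ := brc H
  obtain ⟨H10, H⟩ := brc H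
  obtain ⟨H11, H⟩ := brc H
  obtain ⟨H12, H⟩ := brc H
  obtain ⟨H13, H⟩ := brc H
  obtain ⟨H14, H⟩ := brc H
  obtain ⟨H15, H⟩ := brc H
  obtain ⟨H16, H⟩ := brc H
  obtain ⟨H17, H⟩ := brc H
  obtain ⟨H18, H⟩ := brc H
  obtain ⟨H19, H⟩ := brc H
  obtain ⟨H20, H⟩ := brc H
  obtain ⟨H21, H⟩ := brc H
  obtain ⟨H22, H⟩ := brc H
  obtain ⟨H23, H⟩ := brc H
  obtain ⟨H24, H⟩ := brc H
  obtain ⟨H25, H⟩ := brc H
  obtain ⟨H26, H⟩ := brc H
  obtain ⟨H27, H⟩ := brc H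
  obtain ⟨H28, H⟩ := brc H
  obtain ⟨H29, H⟩ := brc H
  obtain ⟨H30, H⟩ := brc H
  cases c1 <;> cases c2 <;> cases c3 <;> cases c4 <;> cases c5
  · exact vtx_s vm0_ok (by norm_num) (by decide +kernel) h H0 x1 x2 x3 x4 x5
  · exact vtx_s vm16_ok (by norm_num) (by decide +kernel) h H16 x1 x2 x3 x4 x5
  · exact vtx_s vm8_ok (by norm_num) (by decide +kernel) h H8 x1 x2 x3 x4 x5
  · exact vtx_s vm24_ok (by norm_num) (by decide +kernel) h H24 x1 x2 x3 x4 x5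
  · exact vtx_s vm4_ok (by norm_num) (by decide +kernel) h H4 x1 x2 x3 x4 x5
  · exact vtx_s vm20_ok (by norm_num) (by decide +kernel) h H20 x1 x2 x3 x4 x5
  · exact vtx_s vm12_ok (by norm_num) (by decide +kernel) h H12 x1 x2 x3 x4 x5
  · exact vtx_s vm28_ok (by norm_num) (by decide +kernel) h H28 x1 x2 x3 x4 x5
  · exact vtx_s vm2_ok (by norm_num) (by decide +kernel) h H2 x1 x2 x3 x4 x5
  · exact vtx_s vm18_ok (by norm_num) (by decide +kernel) h H18 x1 x2 x3 x4 x5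
  · exact vtx_s vm10_ok (by norm_num) (by decide +kernel) h H10 x1 x2 x3 x4 x5
  · exact vtx_s vm26_ok (by norm_num) (by decide +kernel) h H26 x1 x2 x3 x4 x5
  · exact vtx_s vm6_ok (by norm_num) (by decide +kernel) h H6 x1 x2 x3 x4 x5
  · exact vtx_s vm22_ok (by norm_num) (by decide +kernel) h H22 x1 x2 x3 x4 x5
  · exact vtx_s vm14_ok (by norm_num) (by decide +kernel) h H14 x1 x2 x3 x4 x5
  · exact vtx_s vm30_ok (by norm_num) (by decide +kernel) h H30 x1 x2 x3 x4 x5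
  · exact vtx_s vm1_ok (by norm_num) (by decide +kernel) h H1 x1 x2 x3 x4 x5
  · exact vtx_s vm17_ok (by norm_num) (by decide +kernel) h H17 x1 x2 x3 x4 x5
  · exact vtx_s vm9_ok (by norm_num) (by decide +kernel) h H9 x1 x2 x3 x4 x5
  · exact vtx_s vm25_ok (by norm_num) (by decide +kernel) h H25 x1 x2 x3 x4 x5
  · exact vtx_s vm5_ok (by norm_num) (by decide +kernel) h H5 x1 x2 x3 x4 x5
  · exact vtx_s vm21_ok (by norm_num) (by decide +kernel) h H21 x1 x2 x3 x4 x5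
  · exact vtx_s vm13_ok (by norm_num) (by decide +kernel) h H13 x1 x2 x3 x4 x5
  · exact vtx_s vm29_ok (by norm_num) (by decide +kernel) h H29 x1 x2 x3 x4 x5
  · exact vtx_s vm3_ok (by norm_num) (by decide +kernel) h H3 x1 x2 x3 x4 x5
  · exact vtx_s vm19_ok (by norm_num) (by decide +kernel) h H19 x1 x2 x3 x4 x5
  · exact vtx_s vm11_ok (by norm_num) (by decide +kernel) h H11 x1 x2 x3 x4 x5
  · exact vtx_s vm27_ok (by norm_num) (by decide +kernel) h H27 x1 x2 x3 x4 x5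
  · exact vtx_s vm7_ok (by norm_num) (by decide +kernel) h H7 x1 x2 x3 x4 x5
  · exact vtx_s vm23_ok (by norm_num) (by decide +kernel) h H23 x1 x2 x3 x4 x5
  · exact vtx_s vm15_ok (by norm_num) (by decide +kernel) h H15 x1 x2 x3 x4 x5
  · exact vtx_s vm31_ok (by norm_num) (by decide +kernel) h H x1 x2 x3 x4 x5

attribute [irreducible] allV

noncomputable def vtxK (X11 X21 X22 X31 X32 X33 X41 X42 X43 X44 X51 X52 X53 X54 X55 : ℕ) : Bool :=
  fB (Nat.add (absL X11) 1) fun A11 =>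
  fB (Nat.add (rad X11 A11) 1) fun r11 =>
  fB (Nat.add (absL X21) 1) fun A21 =>
  fB (Nat.add (rad X21 A21) 1) fun r21 =>
  fB (Nat.add (absL X22) 1) fun A22 =>
  fB (Nat.add (rad X22 A22) 1) fun r22 =>
  fB (Nat.add (absL X31) 1) fun A31 =>
  fB (Nat.add (rad X31 A31) 1) fun r31 =>
  fB (Nat.add (absL X32) 1) fun A32 =>
  fB (Nat.add (rad X32 A32) 1) fun r32 =>
  fB (Nat.add (absL X33) 1) fun A33 =>
  fB (Nat.add (rad X33 A33) 1) fun r33 =>
  fB (Nat.add (absL X41) 1) fun A41 =>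
  fB (Nat.add (rad X41 A41) 1) fun r41 =>
  fB (Nat.add (absL X42) 1) fun A42 =>
  fB (Nat.add (rad X42 A42) 1) fun r42 =>
  fB (Nat.add (absL X43) 1) fun A43 =>
  fB (Nat.add (rad X43 A43) 1) fun r43 =>
  fB (Nat.add (absL X44) 1) fun A44 =>
  fB (Nat.add (rad X44 A44) 1) fun r44 =>
  fB (Nat.add (absL X51) 1) fun A51 =>
  fB (Nat.add (rad X51 A51) 1) fun r51 =>
  fB (Nat.add (absL X52) 1) fun A52 =>
  fB (Nat.add (rad X52 A52) 1) fun r52 =>
  fB (Nat.add (absL X53) 1) fun A53 =>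
  fB (Nat.add (rad X53 A53) 1) fun r53 =>
  fB (Nat.add (absL X54) 1) fun A54 =>
  fB (Nat.add (rad X54 A54) 1) fun r54 =>
  fB (Nat.add (absL X55) 1) fun A55 =>
  fB (Nat.add (rad X55 A55) 1) fun r55 =>
  fB (Nat.add (Nat.add (Nat.add (Nat.add (Nat.add r11 r21) r31) r41) r51) 1) fun d1 =>
  iB (Nat.ble d1 73786976294838206464) false (
  fB (Nat.add (Nat.add (Nat.add (Nat.add (Nat.add r21 r22) r32) r42) r52) 1) fun d2 =>
  iB (Nat.ble d2 73786976294838206464) false (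
  fB (Nat.add (Nat.add (Nat.add (Nat.add (Nat.add r31 r32) r33) r43) r53) 1) fun d3 =>
  iB (Nat.ble d3 73786976294838206464) false (
  fB (Nat.add (Nat.add (Nat.add (Nat.add (Nat.add r41 r42) r43) r44) r54) 1) fun d4 =>
  iB (Nat.ble d4 73786976294838206464) false (
  fB (Nat.add (Nat.add (Nat.add (Nat.add (Nat.add r51 r52) r53) r54) r55) 1) fun d5 =>
  iB (Nat.ble d5 73786976294838206464) false (
  fB (Nat.add (bas X11 d1) 1) fun b11 =>
  fB (Nat.add (bas X21 0) 1) fun b21 =>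
  fB (Nat.add (bas X22 d2) 1) fun b22 =>
  fB (Nat.add (bas X31 0) 1) fun b31 =>
  fB (Nat.add (bas X32 0) 1) fun b32 =>
  fB (Nat.add (bas X33 d3) 1) fun b33 =>
  fB (Nat.add (bas X41 0) 1) fun b41 =>
  fB (Nat.add (bas X42 0) 1) fun b42 =>
  fB (Nat.add (bas X43 0) 1) fun b43 =>
  fB (Nat.add (bas X44 d4) 1) fun b44 =>
  fB (Nat.add (bas X51 0) 1) fun b51 =>
  fB (Nat.add (bas X52 0) 1) fun b52 =>
  fB (Nat.add (bas X53 0) 1) fun b53 =>
  fB (Nat.add (bas X54 0) 1) fun b54 =>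
  fB (Nat.add (bas X55 d5) 1) fun b55 =>
  allV X11 X21 X22 X31 X32 X33 X41 X42 X43 X44 X51 X52 X53 X54 X55 b11 b21 b22 b31 b32 b33 b41 b42 b43 b44 b51 b52 b53 b54 b55)))))

theorem vtxK_s {e1 e2 e3 e4 e5 : ℝ} (he : Ev e1 e2 e3 e4 e5) {X11 X21 X22 X31 X32 X33 X41 X42 X43 X44 X51 X52 X53 X54 X55 : ℕ} {v11 v21 v22 v31 v32 v33 v41 v42 v43 v44 v51 v52 v53 v54 v55 : ℝ}
    (h11 : In e1 e2 e3 e4 e5 X11 v11) (h21 : In e1 e2 e3 e4 e5 X21 v21) (h22 : In e1 e2 e3 e4 e5 X22 v22) (h31 : In e1 e2 e3 e4 e5 X31 v31) (h32 : In e1 e2 e3 e4 e5 X32 v32) (h33 : In e1 e2 e3 e4 e5 X33 v33) (h41 : In e1 e2 e3 e4 e5 X41 v41) (h42 : In e1 e2 e3 e4 e5 X42 v42) (h43 : In e1 e2 e3 e4 e5 X43 v43) (h44 : In e1 e2 e3 e4 e5 X44 v44) (h51 : In e1 e2 e3 e4 e5 X51 v51) (h52 : In e1 e2 e3 e4 e5 X52 v52) (h53 : In e1 e2 e3 e4 e5 X53 v53) (h54 : In e1 e2 e3 e4 e5 X54 v54) (h55 : In e1 e2 e3 e4 e5 X55 v55)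
    (H : vtxK X11 X21 X22 X31 X32 X33 X41 X42 X43 X44 X51 X52 X53 X54 X55 = true) (x1 x2 x3 x4 x5 : ℝ) : 0 ≤ q5 v11 v21 v22 v31 v32 v33 v41 v42 v43 v44 v51 v52 v53 v54 v55 x1 x2 x3 x4 x5 := by
  unfold vtxK at H
  obtain ⟨A11, hA, H⟩ := frc H
  obtain ⟨r11, hr, H⟩ := frc H
  have k11 : |2199023255552 * v11 - NV X11 e1 e2 e3 e4 e5| ≤ (r11 : ℝ) := by
    rw [← succ_spec hr]; exact NV_err he h11 (succ_spec hA).symm
  clear hA hr
  obtain ⟨A21, hA, H⟩ := frc H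
  obtain ⟨r21, hr, H⟩ := frc H
  have k21 : |2199023255552 * v21 - NV X21 e1 e2 e3 e4 e5| ≤ (r21 : ℝ) := by
    rw [← succ_spec hr]; exact NV_err he h21 (succ_spec hA).symm
  clear hA hr
  obtain ⟨A22, hA, H⟩ := frc H
  obtain ⟨r22, hr, H⟩ := frc H
  have k22 : |2199023255552 * v22 - NV X22 e1 e2 e3 e4 e5| ≤ (r22 : ℝ) := by
    rw [← succ_spec hr]; exact NV_err he h22 (succ_spec hA).symm
  clear hA hr
  obtain ⟨A31, hA, H⟩ := frc H
  obtain ⟨r31, hr, H⟩ := frc H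
  have k31 : |2199023255552 * v31 - NV X31 e1 e2 e3 e4 e5| ≤ (r31 : ℝ) := by
    rw [← succ_spec hr]; exact NV_err he h31 (succ_spec hA).symm
  clear hA hr
  obtain ⟨A32, hA, H⟩ := frc H
  obtain ⟨r32, hr, H⟩ := frc H
  have k32 : |2199023255552 * v32 - NV X32 e1 e2 e3 e4 e5| ≤ (r32 : ℝ) := by
    rw [← succ_spec hr]; exact NV_err he h32 (succ_spec hA).symm
  clear hA hr
  obtain ⟨A33, hA, H⟩ := frc H
  obtain ⟨r33, hr, H⟩ := frc H
  have k33 : |2199023255552 * v33 - NV X33 e1 e2 e3 e4 e5| ≤ (r33 : ℝ) := by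
    rw [← succ_spec hr]; exact NV_err he h33 (succ_spec hA).symm
  clear hA hr
  obtain ⟨A41, hA, H⟩ := frc H
  obtain ⟨r41, hr, H⟩ := frc H
  have k41 : |2199023255552 * v41 - NV X41 e1 e2 e3 e4 e5| ≤ (r41 : ℝ) := by
    rw [← succ_spec hr]; exact NV_err he h41 (succ_spec hA).symm
  clear hA hr
  obtain ⟨A42, hA, H⟩ := frc H
  obtain ⟨r42, hr, H⟩ := frc H
  have k42 : |2199023255552 * v42 - NV X42 e1 e2 e3 e4 e5| ≤ (r42 : ℝ) := by
    rw [← succ_spec hr]; exact NV_err he h42 (succ_spec hA).symm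
  clear hA hr
  obtain ⟨A43, hA, H⟩ := frc H
  obtain ⟨r43, hr, H⟩ := frc H
  have k43 : |2199023255552 * v43 - NV X43 e1 e2 e3 e4 e5| ≤ (r43 : ℝ) := by
    rw [← succ_spec hr]; exact NV_err he h43 (succ_spec hA).symm
  clear hA hr
  obtain ⟨A44, hA, H⟩ := frc H
  obtain ⟨r44, hr, H⟩ := frc H
  have k44 : |2199023255552 * v44 - NV X44 e1 e2 e3 e4 e5| ≤ (r44 : ℝ) := by
    rw [← succ_spec hr]; exact NV_err he h44 (succ_spec hA).symm
  clear hA hr
  obtain ⟨A51, hA, H⟩ := frc H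
  obtain ⟨r51, hr, H⟩ := frc H
  have k51 : |2199023255552 * v51 - NV X51 e1 e2 e3 e4 e5| ≤ (r51 : ℝ) := by
    rw [← succ_spec hr]; exact NV_err he h51 (succ_spec hA).symm
  clear hA hr
  obtain ⟨A52, hA, H⟩ := frc H
  obtain ⟨r52, hr, H⟩ := frc H
  have k52 : |2199023255552 * v52 - NV X52 e1 e2 e3 e4 e5| ≤ (r52 : ℝ) := by
    rw [← succ_spec hr]; exact NV_err he h52 (succ_spec hA).symm
  clear hA hr
  obtain ⟨A53, hA, H⟩ := frc H
  obtain ⟨r53, hr, H⟩ := frc H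
  have k53 : |2199023255552 * v53 - NV X53 e1 e2 e3 e4 e5| ≤ (r53 : ℝ) := by
    rw [← succ_spec hr]; exact NV_err he h53 (succ_spec hA).symm
  clear hA hr
  obtain ⟨A54, hA, H⟩ := frc H
  obtain ⟨r54, hr, H⟩ := frc H
  have k54 : |2199023255552 * v54 - NV X54 e1 e2 e3 e4 e5| ≤ (r54 : ℝ) := by
    rw [← succ_spec hr]; exact NV_err he h54 (succ_spec hA).symm
  clear hA hr
  obtain ⟨A55, hA, H⟩ := frc H
  obtain ⟨r55, hr, H⟩ := frc H
  have k55 : |2199023255552 * v55 - NV X55 e1 e2 e3 e4 e5| ≤ (r55 : ℝ) := by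
    rw [← succ_spec hr]; exact NV_err he h55 (succ_spec hA).symm
  clear hA hr
  obtain ⟨d1, hd1, H⟩ := frc H
  obtain ⟨hk1, H⟩ := brc H
  replace hd1 : (d1 : ℝ) = r11 + r21 + r31 + r41 + r51 := by
    rw [← succ_spec hd1]; simp only [Nat.add_eq]; push_cast; ring
  obtain ⟨d2, hd2, H⟩ := frc H
  obtain ⟨hk2, H⟩ := brc H
  replace hd2 : (d2 : ℝ) = r21 + r22 + r32 + r42 + r52 := by
    rw [← succ_spec hd2]; simp only [Nat.add_eq]; push_cast; ring
  obtain ⟨d3, hd3, H⟩ := frc H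
  obtain ⟨hk3, H⟩ := brc H
  replace hd3 : (d3 : ℝ) = r31 + r32 + r33 + r43 + r53 := by
    rw [← succ_spec hd3]; simp only [Nat.add_eq]; push_cast; ring
  obtain ⟨d4, hd4, H⟩ := frc H
  obtain ⟨hk4, H⟩ := brc H
  replace hd4 : (d4 : ℝ) = r41 + r42 + r43 + r44 + r54 := by
    rw [← succ_spec hd4]; simp only [Nat.add_eq]; push_cast; ring
  obtain ⟨d5, hd5, H⟩ := frc H
  obtain ⟨hk5, H⟩ := brc H
  replace hd5 : (d5 : ℝ) = r51 + r52 + r53 + r54 + r55 := by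
    rw [← succ_spec hd5]; simp only [Nat.add_eq]; push_cast; ring
  obtain ⟨b11, hb11, H⟩ := frc H
  obtain ⟨b21, hb21, H⟩ := frc H
  obtain ⟨b22, hb22, H⟩ := frc H
  obtain ⟨b31, hb31, H⟩ := frc H
  obtain ⟨b32, hb32, H⟩ := frc H
  obtain ⟨b33, hb33, H⟩ := frc H
  obtain ⟨b41, hb41, H⟩ := frc H
  obtain ⟨b42, hb42, H⟩ := frc H
  obtain ⟨b43, hb43, H⟩ := frc H
  obtain ⟨b44, hb44, H⟩ := frc H
  obtain ⟨b51, hb51, H⟩ := frc H
  obtain ⟨b52, hb52, H⟩ := frc H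
  obtain ⟨b53, hb53, H⟩ := frc H
  obtain ⟨b54, hb54, H⟩ := frc H
  obtain ⟨b55, hb55, H⟩ := frc H
  have hB : Bas X11 X21 X22 X31 X32 X33 X41 X42 X43 X44 X51 X52 X53 X54 X55 b11 b21 b22 b31 b32 b33 b41 b42 b43 b44 b51 b52 b53 b54 b55 d1 d2 d3 d4 d5 :=
    ⟨In.bd he h11, In.bd he h21, In.bd he h22, In.bd he h31, In.bd he h32, In.bd he h33, In.bd he h41, In.bd he h42, In.bd he h43, In.bd he h44, In.bd he h51, In.bd he h52, In.bd he h53, In.bd he h54, In.bd he h55,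
     (succ_spec hb11).symm, (succ_spec hb21).symm, (succ_spec hb22).symm, (succ_spec hb31).symm, (succ_spec hb32).symm, (succ_spec hb33).symm, (succ_spec hb41).symm, (succ_spec hb42).symm, (succ_spec hb43).symm, (succ_spec hb44).symm, (succ_spec hb51).symm, (succ_spec hb52).symm, (succ_spec hb53).symm, (succ_spec hb54).symm, (succ_spec hb55).symm,
     Nat.le_of_ble_eq_true hk1, Nat.le_of_ble_eq_true hk2, Nat.le_of_ble_eq_true hk3, Nat.le_of_ble_eq_true hk4, Nat.le_of_ble_eq_true hk5⟩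
  have h1 := cube_nn (f := GV X11 X21 X22 X31 X32 X33 X41 X42 X43 X44 X51 X52 X53 X54 X55 d1 d2 d3 d4 d5 x1 x2 x3 x4 x5) (GV_aff1 X11 X21 X22 X31 X32 X33 X41 X42 X43 X44 X51 X52 X53 X54 X55 d1 d2 d3 d4 d5 x1 x2 x3 x4 x5) (GV_aff2 X11 X21 X22 X31 X32 X33 X41 X42 X43 X44 X51 X52 X53 X54 X55 d1 d2 d3 d4 d5 x1 x2 x3 x4 x5) (GV_aff3 X11 X21 X22 X31 X32 X33 X41 X42 X43 X44 X51 X52 X53 X54 X55 d1 d2 d3 d4 d5 x1 x2 x3 x4 x5) (GV_aff4 X11 X21 X22 X31 X32 X33 X41 X42 X43 X44 X51 X52 X53 X54 X55 d1 d2 d3 d4 d5 x1 x2 x3 x4 x5) (GV_aff5 X11 X21 X22 X31 X32 X33 X41 X42 X43 X44 X51 X52 X53 X54 X55 d1 d2 d3 d4 d5 x1 x2 x3 x4 x5)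
    (allV_s hB H x1 x2 x3 x4 x5) he
  have h2 := q5_rad k11 k21 k22 k31 k32 k33 k41 k42 k43 k44 k51 k52 k53 k54 k55 x1 x2 x3 x4 x5
  unfold GV at h1
  rw [hd1, hd2, hd3, hd4, hd5] at h1
  unfold q5 at h1 h2 ⊢
  linarith [h1, h2]

end Crest.Agent.TM.T53
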